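import Crest.Agent.N250.Gi.Defs
import Crest.Agent.N250.Xi.Inv

/-!
# Row 250 (helper19): the holomorphic inverse of `hat X` on small discs
-/

set_option autoImplicit false
open Set Filter Topology Metric Complex

noncomputable section

namespace Crest.Agent.N250.El

open Gi B1

variable {X : ℝ} {a a' w : ℂ}

theorem sq_pos (hX : 10 ≤ X) : 0 < X ^ 2 := by positivity

theorem norm_et_sub (hX : 10 ≤ X) (ha : ‖a‖ ≤ 1 / X ^ 2) : ‖a * ((X : ℂ) ^ 2 - 2) / 2‖ ≤ 1 / 2 := by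
  have h2 : (100 : ℝ) ≤ X ^ 2 := by nlinarith
  have e : ((X : ℂ) ^ 2 - 2) = ((X ^ 2 - 2 : ℝ) : ℂ) := by push_cast; ring
  rw [norm_div, norm_mul, e, norm_real, Real.norm_of_nonneg (by linarith), Complex.norm_two]
  have h3 : ‖a‖ * X ^ 2 ≤ 1 := by rwa [le_div_iff₀ (sq_pos hX)] at ha
  nlinarith [norm_nonneg a]

theorem et_re (hX : 10 ≤ X) (ha : ‖a‖ ≤ 1 / X ^ 2) : 1 / 2 ≤ (et a X).re := by
  have h := (abs_le.1 ((abs_re_le_norm _).trans (norm_et_sub hX ha))).1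
  rw [et, add_re, one_re]; linarith

theorem et_slit (hX : 10 ≤ X) (ha : ‖a‖ ≤ 1 / X ^ 2) : et a X ∈ slitPlane :=
  Or.inl (by linarith [et_re hX ha])

theorem log_sq_le (hX : 10 ≤ X) : 0 ≤ Real.log (X ^ 2) ∧ Real.log (X ^ 2) ≤ 2 * X - 2 := by
  refine ⟨Real.log_nonneg (by nlinarith), ?_⟩
  have := Real.log_le_sub_one_of_pos (by linarith : 0 < X)
  rw [Real.log_pow]; push_cast; linarith

theorem norm_Lam (hX : 10 ≤ X) (ha : ‖a‖ ≤ 1 / X ^ 2) : ‖Lam X a‖ ≤ Real.log (X ^ 2) + 1 := by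
  have h1 := norm_et_sub hX ha
  have h2 := Complex.norm_log_one_add_half_le_self h1
  have h3 := norm_sub_le ((Real.log (X ^ 2) : ℝ) : ℂ) (log (et a X))
  rw [norm_real, Real.norm_of_nonneg (log_sq_le hX).1] at h3
  rw [Lam]
  unfold et at h3 ⊢
  linarith

theorem norm_Lam' (hX : 10 ≤ X) (ha : ‖a‖ ≤ 1 / X ^ 2) : ‖Lam X a‖ ≤ 2 * X :=
  (norm_Lam hX ha).trans (by linarith [(log_sq_le hX).2])

theorem hasDerivAt_q (X : ℝ) (h : et a X ∈ slitPlane) : HasDerivAt (fun a => a ^ 2 * Lam X a)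
    (2 * a * Lam X a - a ^ 2 * ((((X : ℂ) ^ 2 - 2) / 2) / et a X)) a := by
  have h1 : HasDerivAt (fun a => et a X) (((X : ℂ) ^ 2 - 2) / 2) a := by
    simpa [et] using (((hasDerivAt_id a).mul_const ((X : ℂ) ^ 2 - 2)).div_const 2).const_add 1
  have h2 := (h1.clog h).const_sub ((Real.log (X ^ 2) : ℝ) : ℂ)
  have h3 := (hasDerivAt_pow 2 a).mul h2
  refine h3.congr_deriv ?_
  simp only [Lam]; push_cast; ring

theorem hasDerivAt_hat (X : ℝ) (h : et a X ∈ slitPlane) : HasDerivAt (hat X)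
    (1 + (2 * a * Lam X a - a ^ 2 * ((((X : ℂ) ^ 2 - 2) / 2) / et a X))) a :=
  (hasDerivAt_id a).add (hasDerivAt_q X h)

theorem hat_diffAt (h : et a X ∈ slitPlane) : DifferentiableAt ℂ (hat X) a :=
  (hasDerivAt_hat X h).differentiableAt

theorem hat_diff (hX : 10 ≤ X) : DifferentiableOn ℂ (hat X) (closedBall 0 (1 / X ^ 2)) := fun _ ha =>
  (hat_diffAt (et_slit hX (mem_closedBall_zero_iff.1 ha))).differentiableWithinAt

theorem hat_zero (X : ℝ) : hat X 0 = 0 := by simp [hat]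

theorem hasDerivAt_hat_zero (X : ℝ) : HasDerivAt (hat X) 1 0 := by
  simpa using hasDerivAt_hat (a := 0) X (by simp [et])

theorem norm_dq (hX : 10 ≤ X) (ha : ‖a‖ ≤ 1 / X ^ 2) :
    ‖2 * a * Lam X a - a ^ 2 * ((((X : ℂ) ^ 2 - 2) / 2) / et a X)‖ ≤
      (2 * Real.log (X ^ 2) + 3) * ‖a‖ := by
  have h1 := norm_Lam hX ha
  have h2 := norm_et_sub hX ha
  have h3 : 1 / 2 ≤ ‖et a X‖ := (et_re hX ha).trans (re_le_norm _)
  have e : a ^ 2 * ((((X : ℂ) ^ 2 - 2) / 2) / et a X) = a * ((a * ((X : ℂ) ^ 2 - 2) / 2) / et a X) := by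
    ring
  have h4 : ‖(a * ((X : ℂ) ^ 2 - 2) / 2) / et a X‖ ≤ 1 := by
    rw [norm_div (a * ((X : ℂ) ^ 2 - 2) / 2), div_le_one (by linarith)]; linarith
  refine (norm_sub_le _ _).trans ?_
  rw [e, norm_mul, norm_mul, norm_mul a, Complex.norm_two]
  nlinarith [norm_nonneg a, mul_le_mul_of_nonneg_left h1 (norm_nonneg a),
    mul_le_mul_of_nonneg_left h4 (norm_nonneg a)]

/-- `hat X - id` is Lipschitz on the disc of radius `ρ ≤ 1 / X²` -/
theorem hat_lip' (hX : 10 ≤ X) {ρ : ℝ} (hρ : ρ ≤ 1 / X ^ 2) (ha : ‖a‖ ≤ ρ) (ha' : ‖a'‖ ≤ ρ) :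
    ‖hat X a - hat X a' - (a - a')‖ ≤ (2 * Real.log (X ^ 2) + 3) * ρ * ‖a - a'‖ := by
  have h0 := (log_sq_le hX).1
  have := (convex_closedBall (0 : ℂ) ρ).norm_image_sub_le_of_norm_hasDerivWithin_le
    (f := fun a => a ^ 2 * Lam X a) (C := (2 * Real.log (X ^ 2) + 3) * ρ)
    (fun z hz => (hasDerivAt_q X (et_slit hX ((mem_closedBall_zero_iff.1 hz).trans hρ))).hasDerivWithinAt)
    (fun z hz => (norm_dq hX ((mem_closedBall_zero_iff.1 hz).trans hρ)).trans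
      (mul_le_mul_of_nonneg_left (mem_closedBall_zero_iff.1 hz) (by positivity)))
    (mem_closedBall_zero_iff.2 ha') (mem_closedBall_zero_iff.2 ha)
  refine le_of_eq_of_le (congrArg norm ?_) this
  simp only [hat]; ring

theorem lip_const (hX : 10 ≤ X) : (2 * Real.log (X ^ 2) + 3) * (1 / X ^ 2) ≤ 4 / X := by
  have h := (log_sq_le hX).2
  rw [mul_one_div, div_le_div_iff₀ (sq_pos hX) (by linarith)]
  nlinarith

theorem hat_lip (hX : 10 ≤ X) (ha : ‖a‖ ≤ 1 / X ^ 2) (ha' : ‖a'‖ ≤ 1 / X ^ 2) :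
    ‖hat X a - hat X a' - (a - a')‖ ≤ 4 / X * ‖a - a'‖ :=
  (hat_lip' hX le_rfl ha ha').trans (mul_le_mul_of_nonneg_right (lip_const hX) (norm_nonneg _))

theorem hat_lip2 (hX : 10 ≤ X) (ha : ‖a‖ ≤ 1 / X ^ 2) (ha' : ‖a'‖ ≤ 1 / X ^ 2) :
    ‖hat X a - hat X a' - (a - a')‖ ≤ ‖a - a'‖ / 2 := by
  have h : 4 / X ≤ 1 / 2 := by rw [div_le_iff₀ (by linarith)]; linarith
  have := mul_le_mul_of_nonneg_right h (norm_nonneg (a - a'))
  linarith [hat_lip hX ha ha']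

theorem hat_low (hX : 10 ≤ X) (ha : ‖a‖ ≤ 1 / X ^ 2) (ha' : ‖a'‖ ≤ 1 / X ^ 2) :
    ‖a - a'‖ ≤ 2 * ‖hat X a - hat X a'‖ := by
  have h1 := hat_lip2 hX ha ha'
  have h2 := norm_sub_le (hat X a - hat X a') (hat X a - hat X a' - (a - a'))
  rw [sub_sub_cancel] at h2
  linarith

theorem hat_up (hX : 10 ≤ X) (ha : ‖a‖ ≤ 1 / X ^ 2) (ha' : ‖a'‖ ≤ 1 / X ^ 2) :
    ‖hat X a - hat X a'‖ ≤ 3 / 2 * ‖a - a'‖ := by
  have h1 := hat_lip2 hX ha ha'
  have h2 := norm_add_le (hat X a - hat X a' - (a - a')) (a - a')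
  rw [sub_add_cancel] at h2
  linarith

theorem norm_hat (hX : 10 ≤ X) (ha : ‖a‖ ≤ 1 / X ^ 2) : ‖hat X a‖ ≤ 3 / 2 * ‖a‖ := by
  simpa [hat_zero] using hat_up hX ha (a' := 0) (by simp; positivity)

theorem le_norm_hat (hX : 10 ≤ X) (ha : ‖a‖ ≤ 1 / X ^ 2) : ‖a‖ ≤ 2 * ‖hat X a‖ := by
  simpa [hat_zero] using hat_low hX ha (a' := 0) (by simp; positivity)

theorem hat_conj (h : et a X ∈ slitPlane) :
    hat X (starRingEnd ℂ a) = starRingEnd ℂ (hat X a) := by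
  have e : et (starRingEnd ℂ a) X = starRingEnd ℂ (et a X) := by simp [et, map_ofNat]
  have harg : (et a X).arg ≠ Real.pi := slitPlane_arg_ne_pi h
  simp only [hat, Lam, e, log_conj _ harg, map_add, map_mul, map_pow, map_sub, conj_ofReal]

/-! ### the inverse -/

/-- the domain of the equation -/
def Om (X : ℝ) : Set (ℂ × ℂ) := {z | ‖z.2‖ < 1 / X ^ 2}

/-- the equation `hat X a = w` -/
def Ph (X : ℝ) (z : ℂ × ℂ) : ℂ := hat X z.2 - z.1

theorem eqn (hX : 10 ≤ X) : Xi.Eqn (ContinuousLinearEquiv.refl ℂ ℂ) (Om X) (Ph X) where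
  isOpen := isOpen_lt (by fun_prop) continuous_const
  hol z hz := (((hat_diffAt (et_slit hX (le_of_lt hz))).comp z differentiableAt_snd).sub
    differentiableAt_fst).differentiableWithinAt
  lip p a a' ha ha' := by
    have := hat_lip2 hX (le_of_lt ha) (le_of_lt ha')
    rw [norm_sub_rev] at this
    refine le_of_eq_of_le (congrArg norm ?_) this
    simp [Ph]

/-- the inverse of `hat X` near `0` -/
def hi (X : ℝ) : ℂ → ℂ := Xi.sl (Om X) (Ph X)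

theorem mem_WW (hX : 10 ≤ X) (hw : ‖w‖ < 1 / (2 * X ^ 2)) : w ∈ Xi.WW (Om X) (Ph X) := by
  refine ((eqn hX).ex (p := w) (a0 := 0) (ρ := 2 * ‖w‖) (fun a ha => ?_) (by positivity) ?_).1
  · have := mem_closedBall_zero_iff.1 ha
    have e : 1 / X ^ 2 = 2 * (1 / (2 * X ^ 2)) := by field_simp
    change ‖a‖ < 1 / X ^ 2
    linarith
  · simp [Ph, hat_zero]

theorem hat_hi (hX : 10 ≤ X) (hw : ‖w‖ < 1 / (2 * X ^ 2)) : hat X (hi X w) = w :=
  sub_eq_zero.1 (Xi.sl_eq (mem_WW hX hw))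

theorem hi_lt (hX : 10 ≤ X) (hw : ‖w‖ < 1 / (2 * X ^ 2)) : ‖hi X w‖ < 1 / X ^ 2 :=
  Xi.sl_mem (mem_WW hX hw)

theorem hi_hat (hX : 10 ≤ X) (ha : ‖a‖ < 1 / X ^ 2) : hi X (hat X a) = a :=
  ((eqn hX).eq_sl (p := hat X a) (a := a) ha (sub_self _)).symm

theorem hi_zero (hX : 10 ≤ X) : hi X 0 = 0 := by
  simpa [hat_zero] using hi_hat hX (a := 0) (by simp; positivity)

theorem hi_diffAt (hX : 10 ≤ X) (hw : ‖w‖ < 1 / (2 * X ^ 2)) : DifferentiableAt ℂ (hi X) w :=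
  (eqn hX).sl_diffAt (mem_WW hX hw)

theorem hi_diff (hX : 10 ≤ X) : DifferentiableOn ℂ (hi X) (ball 0 (1 / (2 * X ^ 2))) := fun _ hw =>
  (hi_diffAt hX (mem_ball_zero_iff.1 hw)).differentiableWithinAt

theorem norm_hi (hX : 10 ≤ X) (hw : ‖w‖ < 1 / (2 * X ^ 2)) : ‖hi X w‖ ≤ 2 * ‖w‖ := by
  have := le_norm_hat hX (hi_lt hX hw).le
  rwa [hat_hi hX hw] at this

theorem hi_lip (hX : 10 ≤ X) {w' : ℂ} (hw : ‖w‖ < 1 / (2 * X ^ 2)) (hw' : ‖w'‖ < 1 / (2 * X ^ 2)) :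
    ‖hi X w - hi X w'‖ ≤ 2 * ‖w - w'‖ := by
  have := hat_low hX (hi_lt hX hw).le (hi_lt hX hw').le
  rwa [hat_hi hX hw, hat_hi hX hw'] at this

/-- `a` is close to `hi X w` when `hat X a` is close to `w` -/
theorem sub_hi (hX : 10 ≤ X) (ha : ‖a‖ ≤ 1 / X ^ 2) (hw : ‖w‖ < 1 / (2 * X ^ 2)) :
    ‖a - hi X w‖ ≤ 2 * ‖hat X a - w‖ := by
  have := hat_low hX ha (hi_lt hX hw).le
  rwa [hat_hi hX hw] at this

theorem hasDerivAt_hi (hX : 10 ≤ X) : HasDerivAt (hi X) 1 0 := by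
  have h0 : ‖(0 : ℂ)‖ < 1 / (2 * X ^ 2) := by simp; positivity
  have h1 := (hi_diffAt hX h0).hasDerivAt
  have h2 : HasDerivAt (hat X) 1 (hi X 0) := by rw [hi_zero hX]; exact hasDerivAt_hat_zero X
  have h3 := h2.comp 0 h1
  have h4 : HasDerivAt (hat X ∘ hi X) 1 0 := (hasDerivAt_id (0 : ℂ)).congr_of_eventuallyEq (by
    filter_upwards [isOpen_ball.mem_nhds (mem_ball_zero_iff.2 h0)] with w hw
    exact hat_hi hX (mem_ball_zero_iff.1 hw))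
  have h5 := h3.unique h4
  rw [one_mul] at h5
  rwa [h5] at h1

theorem hi_conj (hX : 10 ≤ X) (hw : ‖w‖ < 1 / (2 * X ^ 2)) :
    hi X (starRingEnd ℂ w) = starRingEnd ℂ (hi X w) := by
  have h := hi_lt hX hw
  have := hi_hat hX (a := starRingEnd ℂ (hi X w)) (by rwa [norm_conj])
  rwa [hat_conj (et_slit hX h.le), hat_hi hX hw] at this

/-- small parameters are admissible -/
theorem adm_small {K : ℝ} (hX : 0 < X) (hK : 4 * K < X ^ 2) (ha : ‖a‖ ≤ 1 / X ^ 2) : Adm K X a := by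
  have h2 : 0 < X ^ 2 := by positivity
  have h1 : ‖a * (X : ℂ) ^ 2 / 2‖ ≤ 1 / 2 := by
    rw [norm_div, norm_mul, norm_pow, norm_real, Real.norm_eq_abs, sq_abs, Complex.norm_two]
    rw [le_div_iff₀ h2] at ha
    linarith
  have h3 := norm_sub_le (a * (X : ℂ) ^ 2 / 2) (1 / 8)
  rw [show ‖(1 / 8 : ℂ)‖ = 1 / 8 by simp] at h3
  have h4 : 2 * K / X ^ 2 < 1 / 2 := by rw [div_lt_iff₀ h2]; linarith
  unfold Adm; linarith

theorem isOpen_adm (K X : ℝ) : IsOpen {a | Adm K X a} :=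
  isOpen_lt (by fun_prop) continuous_const

end Crest.Agent.N250.El

end
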