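import Crest.Agent.N250.El.Defs
import Crest.Agent.N250.El.Hat
import Crest.Agent.N250.Xi.Tip

/-!
# Row 250 (helper19): the expansion of the end family up to the tip
-/

set_option autoImplicit false
open Set Filter Topology Metric

noncomputable section

namespace Crest.Agent.N250.El

open Gi B1

variable {B W : Type*} [NormedAddCommGroup B] [NormedSpace ℂ B] [NormedAddCommGroup W]
  [NormedSpace ℂ W]

theorem re_ge_adm {K X : ℝ} {a : ℂ} (h : Adm K X a) (hK : 0 ≤ K) (hX : 2 ≤ X) :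
    K / X ^ 2 ≤ (et a X).re := by
  refine le_trans ?_ (Xi.Tip.re_ge h hX)
  have h1 : 2 / X ^ 2 ≤ 1 / 2 := by rw [div_le_iff₀ (by positivity)]; nlinarith
  have h2 : 0 ≤ K / X ^ 2 := by positivity
  have h3 : 0 ≤ 2 / X ^ 2 := by positivity
  rw [mul_div_assoc]
  nlinarith

theorem re_pos_adm {K X : ℝ} {a : ℂ} (h : Adm K X a) (hK : 0 ≤ K) (hX : 2 ≤ X) :
    0 < (et a X).re := by
  refine lt_of_lt_of_le ?_ (Xi.Tip.re_ge h hX)
  have h1 : 2 / X ^ 2 ≤ 1 / 2 := by rw [div_le_iff₀ (by positivity)]; nlinarith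
  have h2 : 0 ≤ 2 * K / X ^ 2 := by positivity
  have h3 : 0 < 2 / X ^ 2 := by positivity
  nlinarith

theorem norm_hat_adm {K X : ℝ} {a : ℂ} (h : Adm K X a) (hK : 0 ≤ K) (hX : 10 ≤ X) :
    ‖hat X a‖ ≤ 5 / X ^ 2 := by
  have h1 := Xi.Tip.norm_le h hK
  have h2 := Xi.lam_le h hK (by linarith)
  have h3 := (log_sq_le hX).2
  have hp := sq_pos hX
  have h4 : ‖a‖ * ‖Lam X a‖ ≤ 1 := by
    have : ‖a‖ * ‖Lam X a‖ ≤ ‖a‖ * (4 * X) := mul_le_mul_of_nonneg_left (by linarith) (norm_nonneg _)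
    nlinarith [mul_nonneg (norm_nonneg a) (by linarith : 0 ≤ X)]
  refine (norm_add_le _ _).trans ?_
  rw [norm_mul, norm_pow, le_div_iff₀ hp]
  have := mul_le_mul h1 h4 (by positivity) (by norm_num)
  nlinarith

theorem poly_sub {c0 c1 c2 : W} {A : ℝ} (h1 : ‖c1‖ ≤ A) (h2 : ‖c2‖ ≤ A) {u v : ℂ}
    (huv : ‖u‖ + ‖v‖ ≤ 1) :
    ‖(c0 + u • c1 + u ^ 2 • c2) - (c0 + v • c1 + v ^ 2 • c2)‖ ≤ 2 * A * ‖u - v‖ := by
  have e : (c0 + u • c1 + u ^ 2 • c2) - (c0 + v • c1 + v ^ 2 • c2) =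
      (u - v) • (c1 + (u + v) • c2) := by module
  have h3 : ‖(u + v) • c2‖ ≤ A := by
    rw [norm_smul]
    nlinarith [norm_add_le u v, norm_nonneg c2, norm_nonneg (u + v)]
  rw [e, norm_smul, mul_comm]
  exact mul_le_mul_of_nonneg_right (by linarith [norm_add_le c1 ((u + v) • c2)]) (norm_nonneg _)

theorem rpow_split {X : ℝ} (hX : 0 < X) (k : ℝ) : X ^ (-(4 + k)) = X ^ (-k) / X ^ 4 := by
  rw [show -(4 + k) = -k - ((4 : ℕ) : ℝ) by push_cast; ring, Real.rpow_sub hX, Real.rpow_natCast]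

theorem rpow_six {X : ℝ} (hX : 0 < X) : X ^ (-6 : ℝ) = (X ^ 6)⁻¹ := by
  rw [show (-6 : ℝ) = -((6 : ℕ) : ℝ) by norm_num, Real.rpow_neg hX.le, Real.rpow_natCast]

variable {e e0 : ℝ → ℂ → B → W} {U : Set B} {K θ c k CD C X0 A : ℝ} {c0 c1 c2 : B → W}

/-- the expansion on the whole admissible disc -/
theorem Dr1.near0 (h : Dr1 e e0 U K θ c k CD C X0) (hE : Exp e0 U c c0 c1 c2 A) (hc : c ≤ 1 / 2)
    (hk : 0 < k) : ∃ C2 k2 X1 : ℝ, 0 ≤ C2 ∧ 0 < k2 ∧ 10 ≤ X1 ∧ X0 ≤ X1 ∧ ∀ X, X1 ≤ X → ∀ a : ℂ,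
      Adm K X a → ∀ b ∈ U, ‖e X a b - (c0 b + hat X a • c1 b + hat X a ^ 2 • c2 b)‖ ≤
        2 * A * CD / (X ^ 6 * (et a X).re) + C2 * X ^ (-(4 + k2)) := by
  obtain ⟨C', k', X1, hk', hx⟩ := hE.ex
  have hθ := h.θ_pos
  refine ⟨|C| * (1 + 2 * |A|) + |C'| * θ ^ (-(4 + k')), min k k',
    max (max 10 X0) (max 10 X1 / θ), by positivity, lt_min hk hk',
    (le_max_left _ _).trans (le_max_left _ _), (le_max_right _ _).trans (le_max_left _ _),
    fun X hX a ha b hb => ?_⟩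
  have hX10 : 10 ≤ X := ((le_max_left _ _).trans (le_max_left _ _)).trans hX
  have hX0 : X0 ≤ X := ((le_max_right _ _).trans (le_max_left _ _)).trans hX
  have hY : max 10 X1 ≤ θ * X := by
    have := (le_max_right _ _).trans hX
    rwa [div_le_iff₀ hθ, mul_comm] at this
  have hY10 : 10 ≤ θ * X := (le_max_left _ _).trans hY
  have hK : 0 ≤ K := by linarith [h.K_ge]
  obtain ⟨τ, t1, t2, t3⟩ := h.drift X hX0 a ha b hb
  have t4 := hx (θ * X) ((le_max_right _ _).trans hY) τ t1 b hb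
  have hτ : ‖τ‖ ≤ 1 / (θ * X) ^ 2 :=
    t1.trans (div_le_div_of_nonneg_right (by linarith) (by positivity))
  have hu : ‖hat (θ * X) τ‖ ≤ 1 / 2 := by
    have h1 := norm_hat hY10 hτ
    have h2 : 1 / (θ * X) ^ 2 ≤ 1 / 100 := one_div_le_one_div_of_le (by norm_num) (by nlinarith)
    linarith
  have hv : ‖hat X a‖ ≤ 1 / 2 := (norm_hat_adm ha hK hX10).trans (by
    rw [div_le_iff₀ (by positivity)]; nlinarith)
  have hA : 0 ≤ A := (norm_nonneg _).trans (hE.b1 b hb)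
  have t5 := poly_sub (c0 := c0 b) (hE.b1 b hb) (hE.b2 b hb) (u := hat (θ * X) τ) (v := hat X a)
    (by linarith)
  have p1 : X ^ (-(4 + k)) ≤ X ^ (-(4 + min k k')) :=
    Real.rpow_le_rpow_of_exponent_le (by linarith) (by linarith [min_le_left k k'])
  have p2 : X ^ (-(4 + k')) ≤ X ^ (-(4 + min k k')) :=
    Real.rpow_le_rpow_of_exponent_le (by linarith) (by linarith [min_le_right k k'])
  have q1 : C * X ^ (-(4 + k)) ≤ |C| * X ^ (-(4 + min k k')) :=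
    mul_le_mul (le_abs_self _) p1 (by positivity) (abs_nonneg _)
  have q2 : C' * (θ * X) ^ (-(4 + k')) ≤ |C'| * θ ^ (-(4 + k')) * X ^ (-(4 + min k k')) := by
    rw [Real.mul_rpow hθ.le (by linarith), mul_assoc]
    exact mul_le_mul (le_abs_self _) (mul_le_mul_of_nonneg_left p2 (by positivity))
      (by positivity) (abs_nonneg _)
  have q3 := mul_le_mul_of_nonneg_left (t2.trans (add_le_add le_rfl q1))
    (by positivity : 0 ≤ 2 * A)
  have q4 : 2 * A * (CD * X ^ (-6 : ℝ) / (et a X).re) = 2 * A * CD / (X ^ 6 * (et a X).re) := by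
    rw [rpow_six (by linarith)]; ring
  have n1 := norm_sub_le_norm_sub_add_norm_sub (e X a b) (e0 (θ * X) τ b)
    (c0 b + hat X a • c1 b + hat X a ^ 2 • c2 b)
  have n2 := norm_sub_le_norm_sub_add_norm_sub (e0 (θ * X) τ b)
    (c0 b + hat (θ * X) τ • c1 b + hat (θ * X) τ ^ 2 • c2 b)
    (c0 b + hat X a • c1 b + hat X a ^ 2 • c2 b)
  rw [abs_of_nonneg hA]
  rw [mul_add, q4] at q3
  linarith

/-- the same with the constant `2 A CD / K` -/
theorem Dr1.near (h : Dr1 e e0 U K θ c k CD C X0) (hE : Exp e0 U c c0 c1 c2 A) (hc : c ≤ 1 / 2)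
    (hk : 0 < k) : ∃ C2 k2 X1 : ℝ, 0 ≤ C2 ∧ 0 < k2 ∧ 10 ≤ X1 ∧ X0 ≤ X1 ∧ ∀ X, X1 ≤ X → ∀ a : ℂ,
      Adm K X a → ∀ b ∈ U, ‖e X a b - (c0 b + hat X a • c1 b + hat X a ^ 2 • c2 b)‖ ≤
        (2 * A * CD / K + C2 * X ^ (-k2)) / X ^ 4 := by
  obtain ⟨C2, k2, X1, h1, h2, h3, h4, h5⟩ := h.near0 hE hc hk
  refine ⟨C2, k2, X1, h1, h2, h3, h4, fun X hX a ha b hb => (h5 X hX a ha b hb).trans ?_⟩
  have hX0 : 0 < X := by linarith
  have hK : 0 < K := by linarith [h.K_ge]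
  have hA : 0 ≤ A := (norm_nonneg _).trans (hE.b1 b hb)
  have hCD := h.CD_nonneg
  have hr := re_ge_adm ha hK.le (by linarith)
  rw [rpow_split hX0, add_div, mul_div_assoc C2, div_div]
  refine add_le_add (div_le_div_of_nonneg_left (by positivity) (by positivity) ?_) le_rfl
  calc K * X ^ 4 = X ^ 6 * (K / X ^ 2) := by field_simp
    _ ≤ _ := by gcongr

/-- uniform convergence to `c0` -/
theorem Dr1.e2 (h : Dr1 e e0 U K θ c k CD C X0) (hE : Exp e0 U c c0 c1 c2 A) (hc : c ≤ 1 / 2)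
    (hk : 0 < k) : ∃ C3 X1 : ℝ, 0 ≤ C3 ∧ 10 ≤ X1 ∧ X0 ≤ X1 ∧ ∀ X, X1 ≤ X → ∀ a : ℂ,
      Adm K X a → ∀ b ∈ U, ‖e X a b - c0 b‖ ≤ C3 / X ^ 2 := by
  obtain ⟨C2, k2, X1, h1, h2, h3, h4, h5⟩ := h.near hE hc hk
  have hCD := h.CD_nonneg
  have hK : 0 < K := by linarith [h.K_ge]
  refine ⟨2 * |A| * CD / K + C2 + 10 * |A|, X1, by positivity, h3, h4, fun X hX a ha b hb => ?_⟩
  have hX10 : 10 ≤ X := h3.trans hX
  have hA : 0 ≤ A := (norm_nonneg _).trans (hE.b1 b hb)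
  have t1 := h5 X hX a ha b hb
  have t2 := norm_hat_adm ha hK.le hX10
  have hv : ‖hat X a‖ ≤ 1 / 2 := t2.trans (by rw [div_le_iff₀ (by positivity)]; nlinarith)
  have t3 := poly_sub (c0 := c0 b) (hE.b1 b hb) (hE.b2 b hb) (u := hat X a) (v := 0)
    (by rw [norm_zero]; linarith)
  simp only [zero_smul, add_zero, sub_zero, ne_eq, OfNat.ofNat_ne_zero, not_false_eq_true,
    zero_pow] at t3
  have t4 : X ^ (-k2) ≤ 1 := Real.rpow_le_one_of_one_le_of_nonpos (by linarith) (by linarith)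
  have t5 : (2 * A * CD / K + C2 * X ^ (-k2)) / X ^ 4 ≤ (2 * A * CD / K + C2) / X ^ 2 := by
    refine div_le_div₀ (by positivity) (by nlinarith) (by positivity) ?_
    exact pow_le_pow_right₀ (by linarith) (by norm_num)
  have t6 := mul_le_mul_of_nonneg_left t2 (by positivity : 0 ≤ 2 * A)
  have n1 := norm_sub_le_norm_sub_add_norm_sub (e X a b)
    (c0 b + hat X a • c1 b + hat X a ^ 2 • c2 b) (c0 b)
  rw [abs_of_nonneg hA, add_div _ (10 * A)]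
  have : 2 * A * (5 / X ^ 2) = 10 * A / X ^ 2 := by ring
  linarith

end Crest.Agent.N250.El

end
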