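import Crest.Agent.N250.Gi.Defs
import Crest.Agent.N250.B1.Nest

/-!
# Row 250, limit of the end family as the cut tends to infinity (helper30): hypotheses

`e0 X a b` is the family without far slope (`h = 0`, independent of `N`), used only on small discs;
`e X a b` is the family with the slope `h_N`, on `Adm K X`.  `W` is any complex Banach space.
-/

set_option autoImplicit false
open Set Filter Topology Metric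

noncomputable section

namespace Crest.Agent.N250.El

open Gi (hat)

variable {B W : Type*} [NormedAddCommGroup B] [NormedSpace ℂ B] [NormedAddCommGroup W]
  [NormedSpace ℂ W]

/-- the family in the easy regime `|a| X² < 4 c` -/
structure Dr0 (e0 : ℝ → ℂ → B → W) (U : Set B) (c k C X0 : ℝ) : Prop where
  opn : IsOpen U
  c_pos : 0 < c
  c_le : c ≤ 1 / 10
  k_pos : 0 < k
  k_le : k ≤ 1
  hola : ∀ X, X0 ≤ X → ∀ b ∈ U, DifferentiableOn ℂ (fun a => e0 X a b) (ball 0 (4 * c / X ^ 2))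
  holb : ∀ X, X0 ≤ X → ∀ a ∈ ball (0 : ℂ) (4 * c / X ^ 2), DifferentiableOn ℂ (e0 X a) U
  bd : ∀ X, X0 ≤ X → ∀ a ∈ ball (0 : ℂ) (4 * c / X ^ 2), ∀ b ∈ U, ‖e0 X a b‖ ≤ C
  drift : ∀ X X', X0 ≤ X → X ≤ X' → X' ≤ 4 * X → ∀ a : ℂ, ‖a‖ ≤ 4 * c / X' ^ 2 → ‖a‖ ≤ c / X ^ 2 →
    ∀ b ∈ U, ∃ τ : ℂ, ‖τ‖ ≤ 2 * c / X ^ 2 ∧ ‖hat X τ - hat X' a‖ ≤ C * X ^ (-(4 + k)) ∧
      ‖e0 X' a b - e0 X τ b‖ ≤ C * X ^ (-(4 + k))

/-- the family up to the tip, compared with the easy family at the cut `θ X`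
(`CD` does not depend on `K`, `C` and `X0` may) -/
structure Dr1 (e e0 : ℝ → ℂ → B → W) (U : Set B) (K θ c k CD C X0 : ℝ) : Prop where
  K_ge : 1 ≤ K
  θ_pos : 0 < θ
  θ_le : θ ≤ 1
  CD_nonneg : 0 ≤ CD
  hola : ∀ X, X0 ≤ X → ∀ b ∈ U, DifferentiableOn ℂ (fun a => e X a b) {a | B1.Adm K X a}
  drift : ∀ X, X0 ≤ X → ∀ a : ℂ, B1.Adm K X a → ∀ b ∈ U, ∃ τ : ℂ, ‖τ‖ ≤ 2 * c / (θ * X) ^ 2 ∧
    ‖hat (θ * X) τ - hat X a‖ ≤ CD * X ^ (-6 : ℝ) / (B1.et a X).re + C * X ^ (-(4 + k)) ∧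
      ‖e X a b - e0 (θ * X) τ b‖ ≤ C * X ^ (-(4 + k))

/-- the expansion to second order in the renormalised parameter -/
structure Exp (e0 : ℝ → ℂ → B → W) (U : Set B) (c : ℝ) (c0 c1 c2 : B → W) (A : ℝ) : Prop where
  d0 : DifferentiableOn ℂ c0 U
  d1 : DifferentiableOn ℂ c1 U
  d2 : DifferentiableOn ℂ c2 U
  b0 : ∀ b ∈ U, ‖c0 b‖ ≤ A
  b1 : ∀ b ∈ U, ‖c1 b‖ ≤ A
  b2 : ∀ b ∈ U, ‖c2 b‖ ≤ A
  ex : ∃ C k X1 : ℝ, 0 < k ∧ ∀ X, X1 ≤ X → ∀ τ : ℂ, ‖τ‖ ≤ 2 * c / X ^ 2 → ∀ b ∈ U,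
    ‖e0 X τ b - (c0 b + hat X τ • c1 b + hat X τ ^ 2 • c2 b)‖ ≤ C * X ^ (-(4 + k))
  t0 : ∀ b ∈ U, Tendsto (fun X => e0 X 0 b) atTop (𝓝 (c0 b))
  t1 : ∀ b ∈ U, Tendsto (fun X => deriv (fun a => e0 X a b) 0) atTop (𝓝 (c1 b))

end Crest.Agent.N250.El

end
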