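import Crest.Agent.N250.El.HatB

/-!
# Row 250, end limit (helper30): dyadic nested discs and the expansion in the easy regime
-/

set_option autoImplicit false
open Set Filter Topology Metric

noncomputable section

namespace Crest.Agent.N250.El

open Gi (hat Lam)
open B1 (et Adm)
open Nest (Fam cl co)

variable {B W : Type*} [NormedAddCommGroup B] [NormedSpace ℂ B] [NormedAddCommGroup W]
  [NormedSpace ℂ W] [CompleteSpace W]

/-- dyadic cuts -/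
def Xs (X1 : ℝ) (j : ℕ) : ℝ := 2 ^ j * X1

lemma Xs_succ (X1 : ℝ) (j : ℕ) : Xs X1 (j + 1) = 2 * Xs X1 j := by unfold Xs; ring

lemma Xs_ge {X1 : ℝ} (h : 0 ≤ X1) (j : ℕ) : X1 ≤ Xs X1 j :=
  le_mul_of_one_le_left h (one_le_pow₀ one_le_two)

lemma Xs_pos {X1 : ℝ} (h : 0 < X1) (j : ℕ) : 0 < Xs X1 j := by unfold Xs; positivity

lemma Xs_rpow {X1 : ℝ} (h : 0 < X1) (i j : ℕ) (p : ℝ) :
    Xs X1 (i + j) ^ p = Xs X1 i ^ p * ((2 : ℝ) ^ p) ^ j := by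
  have e : Xs X1 (i + j) = Xs X1 i * 2 ^ j := by unfold Xs; ring
  rw [e, Real.mul_rpow (Xs_pos h i).le (by positivity), ← Real.rpow_natCast, ← Real.rpow_natCast,
    ← Real.rpow_mul (by norm_num), ← Real.rpow_mul (by norm_num), mul_comm (j : ℝ) p]

lemma term_eq {X1 ρ : ℝ} (h : 0 < X1) (hρ : 0 < ρ) (E q : ℝ) (n j : ℕ) :
    (2 / (ρ / Xs X1 (j + 1) ^ 2)) ^ n * (E * Xs X1 j ^ q) =
      (8 / ρ) ^ n * E * Xs X1 j ^ (2 * (n : ℝ) + q) := by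
  have h0 := Xs_pos h j
  have e : 2 / (ρ / Xs X1 (j + 1) ^ 2) = 8 / ρ * Xs X1 j ^ 2 := by
    rw [Xs_succ]; field_simp; ring
  rw [e, mul_pow, Real.rpow_add h0, show 2 * (n : ℝ) = ((2 * n : ℕ) : ℝ) by push_cast; ring,
    Real.rpow_natCast, pow_mul]
  ring

lemma exists_dy {X1 X : ℝ} (h : 0 < X1) (hX : 2 * X1 ≤ X) :
    ∃ j, 2 * Xs X1 j ≤ X ∧ X ≤ 4 * Xs X1 j := by
  obtain ⟨j, h1, h2⟩ := exists_nat_pow_near (x := X / (2 * X1)) (y := 2)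
    ((one_le_div (by positivity)).2 hX) one_lt_two
  refine ⟨j, ?_, ?_⟩
  · rw [le_div_iff₀ (by positivity)] at h1; unfold Xs; linarith
  · rw [div_lt_iff₀ (by positivity), pow_succ] at h2; unfold Xs; linarith

theorem nest_pow {U : Set B} {X1 ρ E k M : ℝ} {F : ℕ → B → ℂ → W} (N : ℕ) (h1 : 1 ≤ X1)
    (hρ : 0 < ρ) (hE : 0 ≤ E) (hM : 0 ≤ M) (hk : 0 < k) (hk1 : k ≤ 1)
    (h : Fam U (fun j => ρ / Xs X1 j ^ 2) (fun j => E * Xs X1 j ^ (2 - 2 * (N : ℝ) - k)) M F) :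
    (∀ n < N, Summable fun j => (2 / (ρ / Xs X1 (j + 1) ^ 2)) ^ n *
      (E * Xs X1 j ^ (2 - 2 * (N : ℝ) - k))) ∧
    ∃ C, 0 ≤ C ∧ ∀ i, ∀ b ∈ U, ∀ a ∈ ball (0 : ℂ) (ρ / Xs X1 i ^ 2),
      ‖F i b a - ∑ n ∈ Finset.range N, a ^ n • cl F n b‖ ≤ C * Xs X1 i ^ (2 - 2 * (N : ℝ) - k) := by
  have h0 : 0 < X1 := by linarith
  set q : ℝ := 2 - 2 * (N : ℝ) - k with hq
  have hneg : ∀ n < N, 2 * (n : ℝ) + q < 0 := by
    intro n hn
    have : (n : ℝ) + 1 ≤ N := by exact_mod_cast hn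
    linarith
  have hlt : ∀ n < N, (2 : ℝ) ^ (2 * (n : ℝ) + q) < 1 := fun n hn =>
    Real.rpow_lt_one_of_one_lt_of_neg one_lt_two (hneg n hn)
  have hs : ∀ n < N, ∀ i, HasSum (fun j => (2 / (ρ / Xs X1 (i + j + 1) ^ 2)) ^ n *
      (E * Xs X1 (i + j) ^ q))
      ((8 / ρ) ^ n * E * Xs X1 i ^ (2 * (n : ℝ) + q) * (1 - (2 : ℝ) ^ (2 * (n : ℝ) + q))⁻¹) := by
    intro n hn i
    have := (hasSum_geometric_of_lt_one (by positivity) (hlt n hn)).mul_left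
      ((8 / ρ) ^ n * E * Xs X1 i ^ (2 * (n : ℝ) + q))
    refine this.congr_fun ?_ |>.congr_fun fun _ => rfl
    intro j
    rw [term_eq h0 hρ, Xs_rpow h0]; ring
  have hsum : ∀ n < N, Summable fun j => (2 / (ρ / Xs X1 (j + 1) ^ 2)) ^ n *
      (E * Xs X1 j ^ q) := by
    intro n hn
    simpa only [zero_add] using (hs n hn 0).summable
  refine ⟨hsum, ρ ^ N * ((2 / (ρ / Xs X1 0 ^ 2)) ^ N * M + (8 / ρ) ^ N * E) +
    ∑ n ∈ Finset.range N, 8 ^ n * E * (1 - (2 : ℝ) ^ (2 * (n : ℝ) + q))⁻¹, ?_, ?_⟩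
  · have := Xs_pos h0 0
    refine add_nonneg (by positivity) (Finset.sum_nonneg fun n hn => ?_)
    have := hlt n (Finset.mem_range.1 hn)
    have : 0 < 1 - (2 : ℝ) ^ (2 * (n : ℝ) + q) := by linarith
    positivity
  intro i b hb a ha
  have hX := Xs_pos h0 i
  have hX1 : 1 ≤ Xs X1 i := h1.trans (Xs_ge h0.le i)
  have ha' : ‖a‖ ≤ ρ / Xs X1 i ^ 2 := (mem_ball_zero_iff.1 ha).le
  have hpow : ∀ n : ℕ, ‖a‖ ^ n ≤ ρ ^ n * Xs X1 i ^ (-(2 * (n : ℝ))) := by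
    intro n
    refine (pow_le_pow_left₀ (norm_nonneg a) ha' n).trans (le_of_eq ?_)
    rw [Real.rpow_neg hX.le, show 2 * (n : ℝ) = ((2 * n : ℕ) : ℝ) by push_cast; ring,
      Real.rpow_natCast, pow_mul, div_pow, div_eq_mul_inv]
  refine (h.rem N hsum hb i ha).trans ?_
  rw [add_mul, Finset.sum_mul]
  refine add_le_add ?_ (Finset.sum_le_sum fun n hn => ?_)
  · have hp : (2 : ℝ) ≤ 2 ^ (2 - k) := by
      calc (2 : ℝ) = 2 ^ (1 : ℝ) := by norm_num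
        _ ≤ _ := Real.rpow_le_rpow_of_exponent_le one_le_two (by linarith)
    have h2 : ∀ i, ∑ j ∈ Finset.range i, Xs X1 j ^ (2 - k) ≤ Xs X1 i ^ (2 - k) := by
      intro i
      induction i with
      | zero => simp only [Finset.range_zero, Finset.sum_empty]; have := Xs_pos h0 0; positivity
      | succ i ih =>
        rw [Finset.sum_range_succ, Xs_rpow h0 i 1, pow_one]
        have : 0 ≤ Xs X1 i ^ (2 - k) := by have := Xs_pos h0 i; positivity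
        nlinarith
    have h3 : ∑ j ∈ Finset.range i, (2 / (ρ / Xs X1 (j + 1) ^ 2)) ^ N * (E * Xs X1 j ^ q) ≤
        (8 / ρ) ^ N * E * Xs X1 i ^ (2 - k) := by
      simp only [term_eq h0 hρ, show 2 * (N : ℝ) + q = 2 - k by rw [hq]; ring]
      rw [← Finset.mul_sum]
      gcongr
      exact h2 i
    have h4 : 1 ≤ Xs X1 i ^ (2 - k) := Real.one_le_rpow hX1 (by linarith)
    have h5 : 0 ≤ (2 / (ρ / Xs X1 0 ^ 2)) ^ N * M := by have := Xs_pos h0 0; positivity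
    have h6 : Xs X1 i ^ q = Xs X1 i ^ (-(2 * (N : ℝ))) * Xs X1 i ^ (2 - k) := by
      rw [← Real.rpow_add hX]; congr 1; rw [hq]; ring
    calc ‖a‖ ^ N * ((2 / (ρ / Xs X1 0 ^ 2)) ^ N * M +
          ∑ j ∈ Finset.range i, (2 / (ρ / Xs X1 (j + 1) ^ 2)) ^ N * (E * Xs X1 j ^ q))
        ≤ (ρ ^ N * Xs X1 i ^ (-(2 * (N : ℝ)))) * ((2 / (ρ / Xs X1 0 ^ 2)) ^ N * M *
          Xs X1 i ^ (2 - k) + (8 / ρ) ^ N * E * Xs X1 i ^ (2 - k)) := by
          refine mul_le_mul (hpow N) (add_le_add (le_mul_of_one_le_right h5 h4) h3) ?_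
            (by positivity)
          refine add_nonneg h5 (Finset.sum_nonneg fun j _ => ?_)
          have := Xs_pos h0 j
          have := Xs_pos h0 (j + 1)
          positivity
      _ = _ := by rw [h6]; ring
  · have hn' := Finset.mem_range.1 hn
    have h2 := hlt n hn'
    have h3 : 0 < 1 - (2 : ℝ) ^ (2 * (n : ℝ) + q) := by linarith
    rw [(hs n hn' i).tsum_eq]
    have h6 : Xs X1 i ^ q = Xs X1 i ^ (-(2 * (n : ℝ))) * Xs X1 i ^ (2 * (n : ℝ) + q) := by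
      rw [← Real.rpow_add hX]; congr 1; ring
    calc ‖a‖ ^ n * ((8 / ρ) ^ n * E * Xs X1 i ^ (2 * (n : ℝ) + q) *
          (1 - (2 : ℝ) ^ (2 * (n : ℝ) + q))⁻¹)
        ≤ (ρ ^ n * Xs X1 i ^ (-(2 * (n : ℝ)))) * ((8 / ρ) ^ n * E * Xs X1 i ^ (2 * (n : ℝ) + q) *
          (1 - (2 : ℝ) ^ (2 * (n : ℝ) + q))⁻¹) := by gcongr; exact hpow n
      _ = _ := by rw [h6, div_pow]; field_simp

end Crest.Agent.N250.El

end
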