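import Crest.Agent.N250.El.Tail
import Crest.Agent.N250.Em.Dr
import Crest.Agent.N250.B1.Sm5
import Crest.Agent.N250.Gi.Cau
import Crest.Agent.N250.Lg.Jac

/-!
# Row 250 (helper19): growth of the variations of the end family, uniformly in the cut
-/

set_option autoImplicit false
open Set Filter Topology Metric Complex

noncomputable section

namespace Crest.Agent.N250.El

open B1 Em
open Gi (hat)

variable {ℓ : Ell}

theorem hasSum_vX (R X : ℝ) (a : ℂ) (J : Jt ℓ) (q : ℝ × ℝ) :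
    HasSum (fun m => Wi.ex m q.2 * mo R X (vJ R X a J) 0 m q.1) (vX R X a J q) := by
  have := Rg.hasSum_val (vJ R X a J 0) (tX R X q.1) q.2
  rwa [val_vJ] at this

/-- weak closeness gives closeness of the values -/
theorem xc_val {R X X' N : ℝ} {a a' : ℂ} {J J' : Jt ℓ}
    (h : Xc R X X' (vJ R X' a' J') (vJ R X a J) N) {q : ℝ × ℝ} (hR : 0 ≤ R) (hq : q.1 ∈ Icc R X) :
    ‖vX R X' a' J' q - vX R X a J q‖ ≤ N * q.1 ^ (7 / 8 : ℝ) := by
  obtain ⟨β, hs, hN, hb⟩ := h 0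
  have h0 : 0 ≤ q.1 := hR.trans hq.1
  have := ((hasSum_vX R X' a' J' q).sub (hasSum_vX R X a J q)).norm_le_of_bounded
    (hs.hasSum.mul_right (q.1 ^ (7 / 8 : ℝ))) fun m => by
      have k := hb m q.1 hq
      simp only [Matrix.cons_val_zero, pow_zero, mul_one] at k
      rw [← mul_sub, norm_mul, Wi.norm_ex, one_mul]
      refine le_trans (le_mul_of_one_le_left (norm_nonneg _) (Real.one_le_exp ?_)) k
      have := sig_nonneg (u := q.1 - R) (by linarith [hq.1])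
      have := ℓ.nonneg m
      positivity
  exact this.trans (mul_le_mul_of_nonneg_right hN (by positivity))

theorem vX_eq {R X : ℝ} (h : R + 2 ≤ X) (a : ℂ) (J : Jt ℓ) {q : ℝ × ℝ} (hq : q.1 ∈ Icc R X) :
    vX R X a J q = et a q.1 + Gi.valL ℓ 0 (tX R X q.1) q.2 J := by
  simp only [vX, vk, vj, Matrix.cons_val_zero, Gi.valL_apply, gam_real, xr_tX h hq]

/-- the value of the end function with no far slope -/
def vE (U : Par ℓ → Jt ℓ) (R X : ℝ) (a : ℂ) (b : Wi (omP 2)) (q : ℝ × ℝ) : ℂ :=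
  vX R X a (U ((X : ℂ), a, wd b 0)) q

/-- its non explicit part -/
def wE (U : Par ℓ → Jt ℓ) (R X : ℝ) (a : ℂ) (b : Wi (omP 2)) (q : ℝ × ℝ) : ℂ :=
  Gi.valL ℓ 0 (tX R X q.1) q.2 (U ((X : ℂ), a, wd b 0))

/-- the first admissible cut -/
def XF (R K : ℝ) : ℝ := max 10 (max (2 * R + 5) (2 * √K + 1))

theorem XF_ge (R K : ℝ) : 10 ≤ XF R K := le_max_left _ _

section

variable {U : Par ℓ → Jt ℓ} {R K ε ε1 C0 Ch c CD C c0 : ℝ} (F : Fm U R K ε ε1 C0 Ch c CD C c0)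
  {X : ℝ} {a : ℂ} {b : Wi (omP 2)} {q : ℝ × ℝ}

theorem XF_le (hX : XF R K ≤ X) : 10 ≤ X ∧ 2 * R + 4 < X ∧ 2 * √K < X := by
  simp only [XF, max_le_iff] at hX
  exact ⟨hX.1, by linarith [hX.2.1], by linarith [hX.2.2]⟩

include F

theorem dom0 (hX : XF R K ≤ X) (ha : ‖a‖ ≤ 1 / X ^ 2) (hb : R ^ (13 / 8 : ℝ) * ‖b‖ < ε) :
    ((X : ℂ), a, wd (ℓ := ℓ) b 0) ∈ Dom R K (13 / 8) (7 / 4) ε := by
  obtain ⟨h1, h2, h3⟩ := XF_le hX
  have hK : 4 * K < X ^ 2 := by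
    have := Real.sq_sqrt F.K_pos.le
    nlinarith [Real.sqrt_nonneg K]
  refine ⟨h2, h3, by simpa using (by linarith : 0 < X), adm_small (by simpa using (by linarith : 0 < X))
    (by simpa using hK) (by simpa using ha), ?_⟩
  rw [dn_wd]; simpa using hb

theorem vE_eq (hX : XF R K ≤ X) (hq : q.1 ∈ Icc R X) :
    vE U R X a b q = et a q.1 + wE U R X a b q :=
  vX_eq (by linarith [(XF_le hX).2.1, F.sz.hR]) _ _ hq

theorem norm_et_le (hX : XF R K ≤ X) (ha : ‖a‖ ≤ 1 / X ^ 2) (hq : q.1 ∈ Icc R X) :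
    ‖et a q.1‖ ≤ 3 / 2 := by
  have h10 := (XF_le hX).1
  have h2 : 2 ≤ q.1 := F.sz.hR.trans hq.1
  have e : ((q.1 : ℂ) ^ 2 - 2) = ((q.1 ^ 2 - 2 : ℝ) : ℂ) := by push_cast; ring
  refine (norm_add_le _ _).trans ?_
  rw [norm_one, norm_div, norm_mul, e, norm_real, Real.norm_of_nonneg (by nlinarith), Complex.norm_two]
  rw [le_div_iff₀ (sq_pos h10)] at ha
  have : q.1 ^ 2 ≤ X ^ 2 := by have := hq.2; gcongr
  nlinarith [norm_nonneg a]

theorem norm_wE (hX : XF R K ≤ X) (ha : ‖a‖ ≤ 1 / X ^ 2) (hb : R ^ (13 / 8 : ℝ) * ‖b‖ < ε)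
    (hq : q.1 ∈ Icc R X) : ‖wE U R X a b q‖ ≤ 1 / 16 := by
  have S := F.sl (dom0 F hX ha hb)
  have h2 : R + 2 ≤ X := by linarith [(XF_le hX).2.1, F.sz.hR]
  have hp := S.pt F.sz (tX R X q.1)
  have hb0 := S.inb.b0
  simp only [ofReal_re] at hp hb0
  have h3 := hp.W_le_sq (g := 13 / 8) (g' := 7 / 4) (by norm_num) (by norm_num) (by norm_num)
  have h4 := norm_et_le F hX ha hq
  have h5 := Rg.val_le hb0 (tX R X q.1) q.2 (F := 9 / 4) hp.rho_pos (hp.W_pos _ _)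
    (Or.inl (by linarith [hp.rho_le_one])) (h3.trans (by
      rw [xr_tX h2 hq]; nlinarith [norm_nonneg (et a q.1)]))
  refine h5.trans ?_
  linarith [F.sz.he]

theorem norm_vE (hX : XF R K ≤ X) (ha : ‖a‖ ≤ 1 / X ^ 2) (hb : R ^ (13 / 8 : ℝ) * ‖b‖ < ε)
    (hq : q.1 ∈ Icc R X) : ‖vE U R X a b q‖ ≤ 2 := by
  rw [vE_eq F hX hq]
  linarith [norm_add_le (et a q.1) (wE U R X a b q), norm_wE F hX ha hb hq, norm_et_le F hX ha hq]

theorem wE_diff {P : Type*} [NormedAddCommGroup P] [NormedSpace ℂ P] {V : Set P} {a : P → ℂ}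
    {b : P → Wi (omP 2)} (hX : XF R K ≤ X) (h1 : DifferentiableOn ℂ a V) (h2 : DifferentiableOn ℂ b V)
    (hm : ∀ p ∈ V, ‖a p‖ ≤ 1 / X ^ 2 ∧ R ^ (13 / 8 : ℝ) * ‖b p‖ < ε) (q : ℝ × ℝ) :
    DifferentiableOn ℂ (fun p => wE U R X (a p) (b p) q) V :=
  (Gi.valL ℓ 0 (tX R X q.1) q.2).differentiable.comp_differentiableOn
    (F.isEnd.hol.comp (f := fun p => ((X : ℂ), a p, wd (ℓ := ℓ) (b p) 0))
      ((differentiableOn_const _).prodMk (h1.prodMk (differentiable_wd.comp_differentiableOn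
        (f := fun p => (b p, (0 : ℂ))) (h2.prodMk (differentiableOn_const _)))))
      fun p hp => dom0 F hX (hm p hp).1 (hm p hp).2)

theorem wE_diff_a (hX : XF R K ≤ X) (hb : R ^ (13 / 8 : ℝ) * ‖b‖ < ε) (q : ℝ × ℝ) :
    DifferentiableOn ℂ (fun a => wE U R X a b q) (ball 0 (1 / X ^ 2)) :=
  wE_diff F hX differentiableOn_id (differentiableOn_const _)
    (fun _ ha => ⟨(mem_ball_zero_iff.1 ha).le, hb⟩) q

theorem vE_diff_a (hX : XF R K ≤ X) (hb : R ^ (13 / 8 : ℝ) * ‖b‖ < ε) (hq : q.1 ∈ Icc R X) :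
    DifferentiableOn ℂ (fun a => vE U R X a b q) (ball 0 (1 / X ^ 2)) := by
  simp only [vE_eq F hX hq]
  exact (by unfold et; fun_prop : Differentiable ℂ fun a => et a q.1).differentiableOn.add
    (wE_diff_a F hX hb q)

/-- the derivative at the cut `X` -/
theorem dA_sub (hX : XF R K ≤ X) (hb : R ^ (13 / 8 : ℝ) * ‖b‖ < ε) (hq : q.1 ∈ Icc R X) :
    ‖deriv (fun a => vE U R X a b q) 0 - ((q.1 : ℂ) ^ 2 - 2) / 2‖ ≤ X ^ 2 / 8 := by
  have p := sq_pos (XF_le hX).1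
  have h1 : HasDerivAt (fun a => et a q.1) (((q.1 : ℂ) ^ 2 - 2) / 2) 0 := by
    simpa [et] using (((hasDerivAt_id (0 : ℂ)).mul_const ((q.1 : ℂ) ^ 2 - 2)).div_const 2).const_add 1
  have h2 := ((wE_diff_a F hX hb q).differentiableAt (ball_mem_nhds _ (by positivity))).hasDerivAt
  simp only [vE_eq F hX hq]
  rw [(h1.fun_add h2).deriv, add_sub_cancel_left]
  refine (norm_deriv_le (by positivity) (wE_diff_a F hX hb q)
    fun a ha => norm_wE F hX (mem_ball_zero_iff.1 ha).le hb hq).trans_eq ?_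
  field_simp; ring

/-- one step of the drift at a point -/
theorem drift_pt {X' : ℝ} (hX : XF R K ≤ X) (hXX : X ≤ X') (ha : ‖a‖ ≤ c / X' ^ 2)
    (hb : R ^ (13 / 8 : ℝ) * ‖b‖ < ε) : ∃ τ : ℂ, ‖τ‖ ≤ 2 * c / X ^ 2 ∧
      ‖hat X τ - hat X' a‖ ≤ 2 * CD / X ^ 5 ∧ ∀ q : ℝ × ℝ, q.1 ∈ Icc R X →
        ‖vE U R X' a b q - vE U R X τ b q‖ ≤ C * X ^ (-33 / 8 : ℝ) * q.1 ^ (7 / 8 : ℝ) := by
  obtain ⟨h1, h2, h3⟩ := XF_le hX
  have hc := F.c_pos
  have hc' := F.c_le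
  have p := sq_pos h1
  have hX' := hX.trans hXX
  have ha1 : ‖a‖ ≤ 1 / X' ^ 2 := ha.trans (by gcongr; linarith)
  have ha2 : ‖a‖ ≤ c / X ^ 2 := ha.trans (by gcongr)
  have hz' := dom0 F hX' ha1 hb
  have S' := F.sl hz'
  obtain ⟨d1, d2⟩ := F.drift X X' a 0 b _ h2.le h3.le hXX (by simpa using hz'.2.2.2.1)
    (by rwa [le_div_iff₀ p] at ha2) (by
      have : 0 < X' := by linarith
      rw [norm_zero]; have := F.Ch_nonneg; positivity) S'.sol (by simpa using S'.inb)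
  have t1 := F.tau_sub hz' h2.le hXX
  set τ := tauX R X X' a (U ((X' : ℂ), a, wd b 0))
  have t2 : ‖τ‖ ≤ 2 * c / X ^ 2 := by
    have := norm_add_le (τ - a) a
    rw [sub_add_cancel] at this
    rw [mul_div_assoc]; linarith
  have hz := dom0 F hX (t2.trans (by gcongr; linarith)) hb
  have S := F.sl hz
  have d3 := d2 0 _ (by rw [norm_zero]; have := F.Ch_nonneg; positivity) S.sol (by simpa using S.inb)
  refine ⟨τ, t2, d1.trans ?_, fun q hq => xc_val d3 (by linarith [F.sz.hR]) hq⟩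
  have h5 := et_re (h1.trans hXX) ha1
  have h7 : 1 / (X ^ 6 * (et a X').re) ≤ 1 / X ^ 5 := by
    refine one_div_le_one_div_of_le (by positivity) ?_
    have : X ^ 6 * (et a X').re = X ^ 5 * (X * (et a X').re) := by ring
    rw [this]
    exact le_mul_of_one_le_right (by positivity) (by nlinarith)
  have := mul_le_mul_of_nonneg_left (add_le_add h7 (le_refl (1 / X ^ 5))) F.CD_pos.le
  refine this.trans_eq (by ring)

/-- the derivative in `a` is uniformly Cauchy in the cut -/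
theorem dA_tail {X' : ℝ} (hX : XF R K ≤ X) (hXX : X ≤ X') (hb : R ^ (13 / 8 : ℝ) * ‖b‖ < ε)
    (hq : q.1 ∈ Icc R X) :
    ‖deriv (fun a => vE U R X' a b q) 0 - deriv (fun a => vE U R X a b q) 0‖ ≤
      2 * (16 / c * (C + 32 * CD)) / X := by
  have hc := F.c_pos
  have hC := F.C_pos
  have hCD := F.CD_pos
  have h10 := (XF_le hX).1
  refine dyadic (g := fun X => deriv (fun a => vE U R X a b q) 0) (X1 := X) (by linarith)
    (by positivity) (fun Y Y' hY hYY h2 => ?_) le_rfl hXX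
  have hY' := hX.trans hY
  have hY10 := h10.trans hY
  have hY0 : 0 < Y := by linarith
  have hq1 : q.1 ∈ Icc R Y := ⟨hq.1, hq.2.trans hY⟩
  have hq2 : q.1 ∈ Icc R Y' := ⟨hq.1, hq1.2.trans hYY⟩
  have h0 : 0 ≤ q.1 := by linarith [hq.1, F.sz.hR]
  have e1 : C * Y ^ (-33 / 8 : ℝ) * q.1 ^ (7 / 8 : ℝ) ≤ C / Y ^ 3 := by
    have k1 : q.1 ^ (7 / 8 : ℝ) ≤ Y ^ (7 / 8 : ℝ) := Real.rpow_le_rpow h0 hq1.2 (by norm_num)
    have k2 : Y ^ (-33 / 8 : ℝ) * Y ^ (7 / 8 : ℝ) ≤ (Y ^ 3)⁻¹ := by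
      rw [← Real.rpow_add hY0, ← Real.rpow_natCast, ← Real.rpow_neg hY0.le]
      exact Real.rpow_le_rpow_of_exponent_le (by linarith) (by norm_num)
    rw [mul_assoc, div_eq_mul_inv]
    exact mul_le_mul_of_nonneg_left ((mul_le_mul_of_nonneg_left k1 (by positivity)).trans k2) hC.le
  refine (step_le (M := 2) (δ := 2 * CD / Y ^ 5) (ε := C / Y ^ 3) hY10 hYY hc (by linarith [F.c_le])
    (vE_diff_a F hY' hb hq1) (vE_diff_a F (hY'.trans hYY) hb hq2)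
    (fun a ha => norm_vE F hY' (mem_ball_zero_iff.1 ha).le hb hq1) fun a ha => ?_).trans ?_
  · obtain ⟨τ, t1, t2, t3⟩ := drift_pt F hY' hYY ha hb
    exact ⟨τ, t1, t2, (t3 q hq1).trans e1⟩
  · calc _ ≤ 4 * (2 * Y) ^ 2 / c * (C / Y ^ 3 + 8 * 2 * Y ^ 2 * (2 * CD / Y ^ 5)) := by
          gcongr; linarith
      _ = _ := by field_simp; ring

/-- **growth of the derivative in `a`** -/
theorem gro_a : ∃ C' x1 : ℝ, ∀ b : Wi (omP 2), R ^ (13 / 8 : ℝ) * ‖b‖ < ε → ∀ q : ℝ × ℝ, R ≤ q.1 →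
    ∀ X, max (XF R K) q.1 ≤ X → ‖deriv (fun a => vE U R X a b q) 0‖ ≤ C' * q.1 ^ 2 ∧
      (x1 ≤ q.1 → q.1 ^ 2 / 4 ≤ ‖deriv (fun a => vE U R X a b q) 0‖) := by
  set D := 2 * (16 / c * (C + 32 * CD)) with hD
  have hD0 : 0 ≤ D := by have := F.c_pos; have := F.C_pos; have := F.CD_pos; positivity
  have h10 := XF_ge R K
  refine ⟨1 + XF R K ^ 2 + D, max (XF R K) (D + 4), fun b hb q hq X hX => ?_⟩
  set Y := max (XF R K) q.1 with hY
  have h2 : 2 ≤ q.1 := F.sz.hR.trans hq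
  have hq1 : q.1 ∈ Icc R Y := ⟨hq, le_max_right _ _⟩
  have hY10 : 10 ≤ Y := h10.trans (le_max_left _ _)
  have hXY : XF R K ≤ Y := le_max_left _ _
  have t1 := dA_tail F hXY hX hb hq1
  have t2 := dA_sub F hXY hb hq1
  have t3 : D / Y ≤ D := div_le_self hD0 (by linarith)
  have e : ((q.1 : ℂ) ^ 2 - 2) / 2 = (((q.1 ^ 2 - 2) / 2 : ℝ) : ℂ) := by push_cast; ring
  have t4 : ‖((q.1 : ℂ) ^ 2 - 2) / 2‖ = (q.1 ^ 2 - 2) / 2 := by
    rw [e, norm_real, Real.norm_of_nonneg (by nlinarith)]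
  have t5 := norm_sub_le_norm_sub_add_norm_sub (deriv (fun a => vE U R X a b q) 0)
    (deriv (fun a => vE U R Y a b q) 0) (((q.1 : ℂ) ^ 2 - 2) / 2)
  have t6 := abs_le.1 (abs_norm_sub_norm_le (deriv (fun a => vE U R X a b q) 0)
    (((q.1 : ℂ) ^ 2 - 2) / 2))
  rw [← hD] at t1
  refine ⟨?_, fun hx => ?_⟩
  · have : Y ^ 2 ≤ XF R K ^ 2 + q.1 ^ 2 := by
      rcases le_total (XF R K) q.1 with h | h
      · rw [hY, max_eq_right h]; nlinarith
      · rw [hY, max_eq_left h]; nlinarith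
    have k : 1 ≤ q.1 ^ 2 := by nlinarith
    nlinarith [mul_le_mul_of_nonneg_left k (by positivity : 0 ≤ XF R K ^ 2 + D)]
  · have h3 : Y = q.1 := max_eq_right ((le_max_left _ _).trans hx)
    have h4 : D + 4 ≤ q.1 := (le_max_right _ _).trans hx
    have h5 : D / Y ≤ 1 := by rw [div_le_one (by linarith)]; linarith
    have h6 : Y ^ 2 = q.1 ^ 2 := by rw [h3]
    nlinarith

/-- **the derivative in `b` is bounded** -/
theorem gro_b {b0 : Wi (omP 2)} (hb : R ^ (13 / 8 : ℝ) * ‖b0‖ < ε) : ∃ C' : ℝ, 0 ≤ C' ∧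
    ∀ q : ℝ × ℝ, R ≤ q.1 → ∀ X, max (XF R K) q.1 ≤ X → ∀ a : ℂ, ‖a‖ ≤ 1 / X ^ 2 →
      DifferentiableAt ℂ (fun b => vE U R X a b q) b0 ∧ ‖fderiv ℂ (fun b => vE U R X a b q) b0‖ ≤ C' := by
  obtain ⟨r, hr, hs⟩ := Metric.isOpen_iff.1
    (isOpen_lt (by fun_prop) continuous_const :
      IsOpen {b : Wi (omP 2) | R ^ (13 / 8 : ℝ) * ‖b‖ < ε}) b0 hb
  refine ⟨2 * 2 / r, by positivity, fun q hq X hX a ha => ?_⟩
  have hX1 := (le_max_left _ _).trans hX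
  have hq1 : q.1 ∈ Icc R X := ⟨hq, (le_max_right _ _).trans hX⟩
  have hd : DifferentiableOn ℂ (fun b => vE U R X a b q) (ball b0 r) := by
    simp only [vE_eq F hX1 hq1]
    exact (wE_diff F hX1 (differentiableOn_const a) differentiableOn_id
      (fun b hb => ⟨ha, hs hb⟩) q).const_add _
  exact ⟨hd.differentiableAt (ball_mem_nhds _ hr),
    H.fd_le hr hd fun b hb => norm_vE F hX1 ha (hs hb) hq1⟩

/-- pointwise limits of the derivatives in `a` -/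
theorem lim_a (hb : R ^ (13 / 8 : ℝ) * ‖b‖ < ε) {d : ℝ × ℝ → ℂ}
    (hd : ∀ q : ℝ × ℝ, R < q.1 →
      Tendsto (fun X => deriv (fun a => vE U R X a b q) 0) atTop (𝓝 (d q))) :
    (∃ (C' : ℝ) (N : ℕ), ∀ q : ℝ × ℝ, R < q.1 → ‖d q‖ ≤ C' * q.1 ^ N) ∧ Lg.Unb d := by
  obtain ⟨C', x1, h⟩ := gro_a F
  refine ⟨⟨C', 2, fun q hq => le_of_tendsto (hd q hq).norm ?_⟩, fun A x0 => ?_⟩
  · filter_upwards [eventually_ge_atTop (max (XF R K) q.1)] with X hX using (h b hb q hq.le X hX).1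
  · set x := max (max x0 x1) (max (R + 1) (4 * |A| + 1)) with hx
    have k1 : R + 1 ≤ x := (le_max_left _ _).trans (le_max_right _ _)
    have k2 : 4 * |A| + 1 ≤ x := (le_max_right _ _).trans (le_max_right _ _)
    have k3 : x ^ 2 / 4 ≤ ‖d (x, 0)‖ := ge_of_tendsto (hd (x, 0) (by linarith)).norm (by
      filter_upwards [eventually_ge_atTop (max (XF R K) x)] with X hX using
        (h b hb (x, 0) (by linarith) X hX).2 ((le_max_right _ _).trans (le_max_left _ _)))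
    refine ⟨(x, 0), (le_max_left _ _).trans (le_max_left _ _), lt_of_lt_of_le ?_ k3⟩
    nlinarith [le_abs_self A, abs_nonneg A]

/-- pointwise limits of the derivatives in `b` -/
theorem lim_b {b0 : Wi (omP 2)} (hb : R ^ (13 / 8 : ℝ) * ‖b0‖ < ε) (β : Wi (omP 2)) {d : ℝ × ℝ → ℂ}
    (hd : ∀ q : ℝ × ℝ, R < q.1 →
      Tendsto (fun X => fderiv ℂ (fun b => vE U R X 0 b q) b0 β) atTop (𝓝 (d q))) :
    (∃ C' : ℝ, ∀ q : ℝ × ℝ, R < q.1 → ‖d q‖ ≤ C') ∧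
      (∃ (C' : ℝ) (N : ℕ), ∀ q : ℝ × ℝ, R < q.1 → ‖d q‖ ≤ C' * q.1 ^ N) ∧ Lg.Lo d := by
  obtain ⟨C', h0, h⟩ := gro_b F hb
  have k : ∀ q : ℝ × ℝ, R < q.1 → ‖d q‖ ≤ C' * ‖β‖ := fun q hq => le_of_tendsto (hd q hq).norm (by
    filter_upwards [eventually_ge_atTop (max (XF R K) q.1)] with X hX
    exact (ContinuousLinearMap.le_opNorm _ _).trans (mul_le_mul_of_nonneg_right
      (h q hq.le X hX 0 (by simp; positivity)).2 (norm_nonneg _)))
  refine ⟨⟨_, k⟩, ⟨C' * ‖β‖, 0, fun q hq => by simpa using k q hq⟩, fun t ht =>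
    ⟨max (R + 1) (C' * ‖β‖ / t), fun q hq => (k q ?_).trans ?_⟩⟩
  · linarith [(le_max_left _ _).trans hq]
  · have := (le_max_right _ _).trans hq
    rwa [div_le_iff₀ ht, mul_comm q.1] at this

end

end Crest.Agent.N250.El

end
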