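import Crest.Agent.N250.El.Defs

/-!
# Row 250, end limit (helper30): the renormalised parameter, Cauchy estimates, dyadic discs
-/

set_option autoImplicit false
open Set Filter Topology Metric

noncomputable section

namespace Crest.Agent.N250.El

open Gi (hat Lam)
open B1 (et Adm)

variable {W : Type*} [NormedAddCommGroup W] [NormedSpace ℂ W]

/-- Cauchy estimate, Lipschitz form -/
lemma lip_of_bd {f : ℂ → W} {S T : Set ℂ} {δ M : ℝ} (hS : Convex ℝ S) (hT : IsOpen T) (hδ : 0 < δ)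
    (hST : ∀ a ∈ S, closedBall a δ ⊆ T) (hf : DifferentiableOn ℂ f T) (hM : ∀ z ∈ T, ‖f z‖ ≤ M)
    {a a' : ℂ} (ha : a ∈ S) (ha' : a' ∈ S) : ‖f a - f a'‖ ≤ M / δ * ‖a - a'‖ := by
  refine hS.norm_image_sub_le_of_norm_deriv_le (𝕜 := ℂ) (fun x hx => ?_) (fun x hx => ?_) ha' ha
  · exact hf.differentiableAt (hT.mem_nhds (hST x hx (mem_closedBall_self hδ.le)))
  · refine Complex.norm_deriv_le_of_forall_mem_sphere_norm_le hδ ?_
      fun z hz => hM z (hST x hx (sphere_subset_closedBall hz))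
    refine DifferentiableOn.diffContOnCl ?_
    rw [closure_ball x hδ.ne']
    exact hf.mono (hST x hx)

lemma hasDerivAt_et (X a : ℂ) : HasDerivAt (fun a => et a X) ((X ^ 2 - 2) / 2) a := by
  unfold et
  have := ((((hasDerivAt_id a).mul_const (X ^ 2 - 2))).div_const 2).const_add 1
  simpa using this

lemma hasDerivAt_Lam {X : ℝ} {a : ℂ} (h : 0 < (et a X).re) :
    HasDerivAt (Lam X) (-(((X : ℂ) ^ 2 - 2) / 2 / et a X)) a := by
  unfold Lam
  exact ((hasDerivAt_et X a).clog (Or.inl h)).const_sub _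

lemma hasDerivAt_rem {X : ℝ} {a : ℂ} (h : 0 < (et a X).re) :
    HasDerivAt (fun a => a ^ 2 * Lam X a)
      (2 * a * Lam X a - a ^ 2 * (((X : ℂ) ^ 2 - 2) / 2 / et a X)) a := by
  refine ((hasDerivAt_pow 2 a).mul (hasDerivAt_Lam h)).congr_deriv ?_
  push_cast; ring

lemma hasDerivAt_hat' {X : ℝ} {a : ℂ} (h : 0 < (et a X).re) :
    HasDerivAt (hat X)
      (1 + (2 * a * Lam X a - a ^ 2 * (((X : ℂ) ^ 2 - 2) / 2 / et a X))) a :=
  (hasDerivAt_id a).add (hasDerivAt_rem h)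

lemma norm_half {X : ℝ} (hX : 2 ≤ X) : ‖((X : ℂ) ^ 2 - 2) / 2‖ ≤ X ^ 2 / 2 := by
  have : ((X : ℂ) ^ 2 - 2) / 2 = (((X ^ 2 - 2) / 2 : ℝ) : ℂ) := by push_cast; ring
  rw [this, Complex.norm_real, Real.norm_of_nonneg (by nlinarith)]
  linarith

/-- `log X² + 1` -/
def lg (X : ℝ) : ℝ := Real.log (X ^ 2) + 1

/-- large cuts -/
structure Big (X : ℝ) : Prop where
  ge : 100 ≤ X
  lg : lg X ^ 2 ≤ X

lemma lg_ge {X : ℝ} (hX : 1 ≤ X) : 1 ≤ lg X := by
  have := Real.log_nonneg (show 1 ≤ X ^ 2 by nlinarith)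
  unfold lg; linarith

lemma lg_le {X p : ℝ} (hX : 1 ≤ X) (hp : 0 < p) : lg X ≤ (2 / p + 1) * X ^ p := by
  have h1 := Real.log_le_rpow_div (show 0 ≤ X by linarith) hp
  have h2 : 1 ≤ X ^ p := Real.one_le_rpow hX hp.le
  unfold lg
  rw [Real.log_pow]
  have : (2 / p + 1) * X ^ p = 2 * (X ^ p / p) + X ^ p := by ring
  push_cast; linarith

lemma big_of {X : ℝ} (hX : 6561 ≤ X) : Big X := by
  refine ⟨by linarith, ?_⟩
  have h1 := lg_le (X := X) (p := 1 / 4) (by linarith) (by norm_num)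
  have h0 : 0 < X := by linarith
  set y := X ^ (1 / 4 : ℝ) with hy
  have hy0 : 0 ≤ y := by positivity
  have h2 : y ^ 4 = X := by rw [hy, ← Real.rpow_natCast, ← Real.rpow_mul h0.le]; norm_num
  have h3 : 9 ≤ y := by
    by_contra hc
    have : y ^ 4 < 9 ^ 4 := pow_lt_pow_left₀ (not_le.1 hc) hy0 (by norm_num)
    linarith
  have h4 := lg_ge (X := X) (by linarith)
  have h5 : lg X ≤ y ^ 2 := by nlinarith
  calc lg X ^ 2 ≤ (y ^ 2) ^ 2 := pow_le_pow_left₀ (by linarith) h5 2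
    _ = X := by rw [← h2]; ring

lemma Big.lg_le {X : ℝ} (h : Big X) : El.lg X ≤ X / 10 := by
  have h1 := h.lg
  have h2 := h.ge
  have h3 := lg_ge (X := X) (by linarith)
  nlinarith

section easy

variable {X : ℝ} {a : ℂ}

lemma et_sub_le (hX : 2 ≤ X) (ha : ‖a‖ ≤ 2 / 5 / X ^ 2) : ‖et a X - 1‖ ≤ 1 / 5 := by
  have e : et a X - 1 = a * (((X : ℂ) ^ 2 - 2) / 2) := by unfold et; ring
  have h0 : 0 < X ^ 2 := by positivity
  rw [e, norm_mul]
  calc ‖a‖ * ‖((X : ℂ) ^ 2 - 2) / 2‖ ≤ (2 / 5 / X ^ 2) * (X ^ 2 / 2) := by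
        gcongr; exact norm_half hX
    _ = 1 / 5 := by field_simp

lemma et_re_ge (hX : 2 ≤ X) (ha : ‖a‖ ≤ 2 / 5 / X ^ 2) : 4 / 5 ≤ (et a X).re := by
  have h1 := et_sub_le hX ha
  have h2 := Complex.abs_re_le_norm (et a X - 1)
  have h3 := neg_abs_le (et a X - 1).re
  rw [Complex.sub_re, Complex.one_re] at h2 h3
  linarith

lemma Lam_le (hX : 2 ≤ X) (ha : ‖a‖ ≤ 2 / 5 / X ^ 2) : ‖Lam X a‖ ≤ lg X := by
  have h1 := et_sub_le hX ha
  have h2 := Complex.norm_log_one_add_half_le_self (z := et a X - 1) (by linarith)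
  rw [add_sub_cancel] at h2
  have h3 : 0 ≤ Real.log (X ^ 2) := Real.log_nonneg (by nlinarith)
  unfold Lam lg
  refine (norm_sub_le _ _).trans ?_
  rw [Complex.norm_real, Real.norm_of_nonneg h3]
  linarith

lemma rem_lip (hX : 2 ≤ X) {a' : ℂ} (ha : ‖a‖ ≤ 2 / 5 / X ^ 2) (ha' : ‖a'‖ ≤ 2 / 5 / X ^ 2) :
    ‖a ^ 2 * Lam X a - a' ^ 2 * Lam X a'‖ ≤ lg X / X ^ 2 * ‖a - a'‖ := by
  have h0 : 0 < X ^ 2 := by positivity
  refine (convex_closedBall (0 : ℂ) (2 / 5 / X ^ 2)).norm_image_sub_le_of_norm_hasDerivWithin_le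
    (𝕜 := ℂ) (f := fun a => a ^ 2 * Lam X a)
    (fun z hz => (hasDerivAt_rem (X := X) (a := z) ?_).hasDerivWithinAt) (fun z hz => ?_)
    (mem_closedBall_zero_iff.2 ha') (mem_closedBall_zero_iff.2 ha)
  · have := et_re_ge hX (mem_closedBall_zero_iff.1 hz); linarith
  · have hz' := mem_closedBall_zero_iff.1 hz
    have h1 := Lam_le hX hz'
    have h2 := (et_re_ge hX hz').trans (Complex.re_le_norm _)
    have h3 := lg_ge (X := X) (by linarith)
    have h4 : ‖((X : ℂ) ^ 2 - 2) / 2 / et z X‖ ≤ X ^ 2 := by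
      rw [norm_div, div_le_iff₀ (by linarith)]
      have := norm_half hX
      nlinarith
    refine (norm_sub_le _ _).trans ?_
    rw [norm_mul, norm_mul, norm_mul, norm_pow, Complex.norm_ofNat]
    calc 2 * ‖z‖ * ‖Lam X z‖ + ‖z‖ ^ 2 * ‖((X : ℂ) ^ 2 - 2) / 2 / et z X‖
        ≤ 2 * (2 / 5 / X ^ 2) * lg X + (2 / 5 / X ^ 2) ^ 2 * X ^ 2 := by gcongr
      _ = (4 / 5 * lg X + 4 / 25) / X ^ 2 := by field_simp; ring
      _ ≤ _ := by gcongr; linarith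

lemma rem_le (hX : 2 ≤ X) (ha : ‖a‖ ≤ 2 / 5 / X ^ 2) :
    ‖a ^ 2 * Lam X a‖ ≤ lg X / X ^ 2 * ‖a‖ := by
  have := rem_lip hX (a' := 0) ha (by rw [norm_zero]; positivity)
  simpa using this

lemma Big.small (h : Big X) : El.lg X / X ^ 2 ≤ 1 / 1000 := by
  have h1 := h.lg_le
  have h2 := h.ge
  rw [div_le_iff₀ (by positivity)]
  nlinarith

/-- approximate inverse of `hat X` -/
def inv (X : ℝ) (a : ℂ) : ℂ := a - a ^ 2 * Lam X a

lemma hat_sub (X : ℝ) (a : ℂ) : hat X a - a = a ^ 2 * Lam X a := by unfold hat; ring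

lemma Big.hat_le (h : Big X) (ha : ‖a‖ ≤ 2 / 5 / X ^ 2) : ‖hat X a‖ ≤ 1001 / 1000 * ‖a‖ := by
  have h1 := rem_le (by linarith [h.ge]) ha
  have h2 := mul_le_mul_of_nonneg_right h.small (norm_nonneg a)
  have := norm_add_le a (a ^ 2 * Lam X a)
  unfold hat; linarith

lemma Big.inv_le (h : Big X) (ha : ‖a‖ ≤ 2 / 5 / X ^ 2) : ‖inv X a‖ ≤ 1001 / 1000 * ‖a‖ := by
  have h1 := rem_le (by linarith [h.ge]) ha
  have h2 := mul_le_mul_of_nonneg_right h.small (norm_nonneg a)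
  have := norm_sub_le a (a ^ 2 * Lam X a)
  unfold inv; linarith

lemma Big.sq_le (h : Big X) (ha : ‖a‖ ≤ 2 / 5 / X ^ 2) :
    El.lg X / X ^ 2 * (El.lg X / X ^ 2 * ‖a‖) ≤ X ^ (-5 : ℝ) := by
  have h0 : 0 < X := by linarith [h.ge]
  have h3 := lg_ge (X := X) (by linarith [h.ge])
  rw [Real.rpow_neg h0.le, show (5 : ℝ) = ((5 : ℕ) : ℝ) by norm_num, Real.rpow_natCast]
  calc El.lg X / X ^ 2 * (El.lg X / X ^ 2 * ‖a‖)
      ≤ El.lg X / X ^ 2 * (El.lg X / X ^ 2 * (2 / 5 / X ^ 2)) := by gcongr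
    _ = 2 / 5 * El.lg X ^ 2 / X ^ 6 := by field_simp
    _ ≤ 1 * X / X ^ 6 := by gcongr; · norm_num
                            · exact h.lg
    _ = _ := by field_simp

lemma Big.hat_inv (h : Big X) (ha : ‖a‖ ≤ 2 / 5 / X ^ 2) (ha' : ‖inv X a‖ ≤ 2 / 5 / X ^ 2) :
    ‖hat X (inv X a) - a‖ ≤ X ^ (-5 : ℝ) := by
  have hX : 2 ≤ X := by linarith [h.ge]
  have e : hat X (inv X a) - a = inv X a ^ 2 * Lam X (inv X a) - a ^ 2 * Lam X a := by
    unfold hat; rw [inv]; ring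
  have e2 : inv X a - a = -(a ^ 2 * Lam X a) := by unfold inv; ring
  have h1 := rem_lip hX ha' ha
  rw [e2, norm_neg] at h1
  have h3 := lg_ge (X := X) (by linarith)
  rw [e]
  refine h1.trans (le_trans ?_ (h.sq_le ha))
  gcongr
  exact rem_le hX ha

lemma Big.inv_hat (h : Big X) (ha : ‖a‖ ≤ 2 / 5 / X ^ 2) (ha' : ‖hat X a‖ ≤ 2 / 5 / X ^ 2) :
    ‖inv X (hat X a) - a‖ ≤ X ^ (-5 : ℝ) := by
  have hX : 2 ≤ X := by linarith [h.ge]
  have e : inv X (hat X a) - a = -(hat X a ^ 2 * Lam X (hat X a) - a ^ 2 * Lam X a) := by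
    unfold inv; rw [hat]; ring
  have h1 := rem_lip hX ha' ha
  rw [hat_sub] at h1
  have h3 := lg_ge (X := X) (by linarith)
  rw [e, norm_neg]
  refine h1.trans (le_trans ?_ (h.sq_le ha))
  gcongr
  exact rem_le hX ha

lemma Big.hat_inj (h : Big X) {a' : ℂ} (ha : ‖a‖ ≤ 2 / 5 / X ^ 2) (ha' : ‖a'‖ ≤ 2 / 5 / X ^ 2) :
    ‖a - a'‖ ≤ 2 * ‖hat X a - hat X a'‖ := by
  have h1 := rem_lip (by linarith [h.ge]) ha ha'
  have h2 := mul_le_mul_of_nonneg_right h.small (norm_nonneg (a - a'))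
  have e : a - a' = (hat X a - hat X a') - (a ^ 2 * Lam X a - a' ^ 2 * Lam X a') := by
    unfold hat; ring
  have h3 := norm_sub_le (hat X a - hat X a') (a ^ 2 * Lam X a - a' ^ 2 * Lam X a')
  rw [← e] at h3
  linarith [norm_nonneg (a - a')]

lemma differentiableAt_inv (hX : 2 ≤ X) (ha : ‖a‖ ≤ 2 / 5 / X ^ 2) :
    DifferentiableAt ℂ (inv X) a :=
  differentiableAt_id.sub (hasDerivAt_rem (by have := et_re_ge hX ha; linarith)).differentiableAt

end easy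

section adm

variable {K X : ℝ} {a : ℂ}

lemma adm_iff (hX : 0 < X) :
    Adm K X a ↔ a ∈ ball ((1 / 4 / X ^ 2 : ℝ) : ℂ) ((9 / 8 - 2 * K / X ^ 2) * (2 / X ^ 2)) := by
  have e : a * X ^ 2 / 2 - 1 / 8 = (a - ((1 / 4 / X ^ 2 : ℝ) : ℂ)) * ((X ^ 2 / 2 : ℝ) : ℂ) := by
    have : (X : ℂ) ≠ 0 := by exact_mod_cast hX.ne'
    push_cast; field_simp; ring
  have h0 : 0 < X ^ 2 / 2 := by positivity
  unfold Adm
  rw [mem_ball, dist_eq_norm, e, norm_mul, Complex.norm_real, Real.norm_of_nonneg h0.le,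
    show (9 / 8 - 2 * K / X ^ 2) * (2 / X ^ 2) = (9 / 8 - 2 * K / X ^ 2) / (X ^ 2 / 2) by
      field_simp, lt_div_iff₀ h0]
  constructor <;> intro h <;> linarith

lemma adm_eq (K : ℝ) (hX : 0 < X) : {a | Adm K X a} =
    ball ((1 / 4 / X ^ 2 : ℝ) : ℂ) ((9 / 8 - 2 * K / X ^ 2) * (2 / X ^ 2)) := by
  ext a; exact adm_iff hX

lemma adm_margin (hX : 0 < X) (h : Adm (K + 1) X a) :
    closedBall a (4 / X ^ 4) ⊆ {a | Adm K X a} := by
  rw [adm_eq K hX]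
  have h1 := (adm_iff hX).1 h
  refine closedBall_subset_ball' ?_
  have e : (9 / 8 - 2 * K / X ^ 2) * (2 / X ^ 2) =
      4 / X ^ 4 + (9 / 8 - 2 * (K + 1) / X ^ 2) * (2 / X ^ 2) := by field_simp; ring
  rw [e]; linarith [mem_ball.1 h1]

lemma adm_norm (hK : 0 ≤ K) (hX : 0 < X) (h : Adm K X a) : ‖a‖ ≤ 5 / 2 / X ^ 2 := by
  unfold Adm at h
  have h1 := norm_add_le (a * X ^ 2 / 2 - 1 / 8) (1 / 8)
  have h2 : 0 ≤ 2 * K / X ^ 2 := by positivity
  rw [sub_add_cancel, norm_div, norm_mul, norm_pow, Complex.norm_real, Real.norm_of_nonneg hX.le,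
    norm_div, norm_one, Complex.norm_ofNat, Complex.norm_ofNat] at h1
  rw [le_div_iff₀ (by positivity)]
  linarith

lemma adm_re (hK : 0 ≤ K) (hX : 2 ≤ X) (h : Adm K X a) : K / X ^ 2 ≤ (et a X).re := by
  have h0 : 0 < X ^ 2 := by positivity
  unfold Adm at h
  have h1 := Complex.abs_re_le_norm (a * X ^ 2 / 2 - 1 / 8)
  have h2 := neg_abs_le (a * X ^ 2 / 2 - 1 / 8).re
  have e1 : (a * X ^ 2 / 2 - 1 / 8).re = a.re * X ^ 2 / 2 - 1 / 8 := by
    have : a * X ^ 2 / 2 - 1 / 8 = a * ((X ^ 2 / 2 : ℝ) : ℂ) - ((1 / 8 : ℝ) : ℂ) := by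
      push_cast; ring
    rw [this, Complex.sub_re, Complex.re_mul_ofReal, Complex.ofReal_re]; ring
  have e2 : (et a X).re = 1 + a.re * (X ^ 2 - 2) / 2 := by
    have : et a X = 1 + a * (((X ^ 2 - 2) / 2 : ℝ) : ℂ) := by unfold et; push_cast; ring
    rw [this, Complex.add_re, Complex.re_mul_ofReal, Complex.one_re]; ring
  rw [e1] at h1 h2
  have h3 : 2 * K / X ^ 2 - 1 ≤ a.re * X ^ 2 / 2 := by linarith
  have h4 : 0 ≤ (X ^ 2 - 2) / X ^ 2 := div_nonneg (by nlinarith) h0.le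
  have h5 := mul_le_mul_of_nonneg_right h3 h4
  have e3 : a.re * X ^ 2 / 2 * ((X ^ 2 - 2) / X ^ 2) = a.re * (X ^ 2 - 2) / 2 := by field_simp
  have e4 : (2 * K / X ^ 2 - 1) * ((X ^ 2 - 2) / X ^ 2) =
      K / X ^ 2 - 1 + (K / X ^ 2 * ((X ^ 2 - 4) / X ^ 2) + 2 / X ^ 2) := by field_simp; ring
  have h6 : 0 ≤ K / X ^ 2 * ((X ^ 2 - 4) / X ^ 2) + 2 / X ^ 2 := by
    have : 0 ≤ X ^ 2 - 4 := by nlinarith
    positivity
  rw [e2]; linarith

lemma adm_et_le (hK : 0 ≤ K) (hX : 2 ≤ X) (h : Adm K X a) : ‖et a X‖ ≤ 3 := by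
  have h1 := adm_norm hK (by linarith) h
  have e : et a X = 1 + a * (((X : ℂ) ^ 2 - 2) / 2) := by unfold et; ring
  have h0 : 0 < X ^ 2 := by positivity
  have h2 : ‖a‖ * ‖((X : ℂ) ^ 2 - 2) / 2‖ ≤ (5 / 2 / X ^ 2) * (X ^ 2 / 2) := by
    gcongr; exact norm_half hX
  have h3 : (5 / 2 / X ^ 2) * (X ^ 2 / 2) = 5 / 4 := by field_simp; ring
  rw [e]
  refine (norm_add_le _ _).trans ?_
  rw [norm_one, norm_mul]; linarith

lemma adm_Lam (hK : 1 ≤ K) (hX : 2 ≤ X) (h : Adm K X a) : ‖Lam X a‖ ≤ 7 * lg X := by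
  have h0 : 0 < X ^ 2 := by positivity
  have h1 := adm_re (by linarith) hX h
  have h2 := adm_et_le (by linarith) hX h
  have h3 : 0 ≤ Real.log (X ^ 2) := Real.log_nonneg (by nlinarith)
  have h4 : (X ^ 2)⁻¹ ≤ ‖et a X‖ := by
    refine le_trans ?_ (h1.trans (Complex.re_le_norm _))
    rw [inv_eq_one_div]; gcongr
  have h5 : -Real.log (X ^ 2) ≤ Real.log ‖et a X‖ := by
    rw [← Real.log_inv]; exact Real.log_le_log (by positivity) h4
  have h6 : Real.log ‖et a X‖ ≤ 2 := by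
    have := Real.log_le_sub_one_of_pos (lt_of_lt_of_le (by positivity) h4)
    linarith
  have h7 := Complex.norm_le_abs_re_add_abs_im (Complex.log (et a X))
  rw [Complex.log_re, Complex.log_im] at h7
  have h8 := Complex.abs_arg_le_pi (et a X)
  have h9 := Real.pi_le_four
  have h10 : |Real.log ‖et a X‖| ≤ Real.log (X ^ 2) + 2 := abs_le.2 ⟨by linarith, by linarith⟩
  unfold Lam lg
  refine (norm_sub_le _ _).trans ?_
  rw [Complex.norm_real, Real.norm_of_nonneg h3]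
  linarith

/-- `hat X - id` is Lipschitz with a small constant up to the tip -/
lemma adm_rem_lip (hK : 1 ≤ K) (hX : 2 ≤ X) {a' : ℂ} (h : Adm K X a) (h' : Adm K X a') :
    ‖a ^ 2 * Lam X a - a' ^ 2 * Lam X a'‖ ≤ (35 * lg X / X ^ 2 + 4 / K) * ‖a - a'‖ := by
  have h0 : 0 < X ^ 2 := by positivity
  have hc : Convex ℝ {a | Adm K X a} := by rw [adm_eq K (by linarith)]; exact convex_ball _ _
  have hp : 0 < K / X ^ 2 := by positivity
  refine hc.norm_image_sub_le_of_norm_hasDerivWithin_le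
    (𝕜 := ℂ) (f := fun a => a ^ 2 * Lam X a)
    (fun z hz => (hasDerivAt_rem (X := X) (a := z) ?_).hasDerivWithinAt) (fun z hz => ?_) h' h
  · exact hp.trans_le (adm_re (by linarith) hX hz)
  · have h1 := adm_Lam hK hX hz
    have h2 := (adm_re (by linarith) hX hz).trans (Complex.re_le_norm _)
    have h3 := lg_ge (X := X) (by linarith)
    have h5 := adm_norm (by linarith) (by linarith) hz
    have h4 : ‖((X : ℂ) ^ 2 - 2) / 2 / et z X‖ ≤ (X ^ 2 / 2) / (K / X ^ 2) := by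
      rw [norm_div]; gcongr; exact norm_half hX
    refine (norm_sub_le _ _).trans ?_
    rw [norm_mul, norm_mul, norm_mul, norm_pow, Complex.norm_ofNat]
    calc 2 * ‖z‖ * ‖Lam X z‖ + ‖z‖ ^ 2 * ‖((X : ℂ) ^ 2 - 2) / 2 / et z X‖
        ≤ 2 * (5 / 2 / X ^ 2) * (7 * lg X) + (5 / 2 / X ^ 2) ^ 2 * ((X ^ 2 / 2) / (K / X ^ 2)) := by
          gcongr
      _ = 35 * lg X / X ^ 2 + (25 / 8) / K := by field_simp; ring
      _ ≤ _ := by gcongr; norm_num

end adm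

end Crest.Agent.N250.El

end
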