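import Crest.Agent.N250.El.Hat
import Crest.Agent.N250.H.Hol

/-!
# Row 250 (helper19): explicit increments of the derivative in the far parameter
-/

set_option autoImplicit false
open Set Filter Topology Metric

noncomputable section

namespace Crest.Agent.N250.El

open Gi B1

variable {W : Type*} [NormedAddCommGroup W] [NormedSpace ℂ W]

theorem lip_small {f : ℂ → W} {r M : ℝ} (hr : 0 < r) (hd : DifferentiableOn ℂ f (ball 0 (2 * r)))
    (hM : ∀ a ∈ ball (0 : ℂ) (2 * r), ‖f a‖ ≤ M) {a a' : ℂ} (ha : ‖a‖ ≤ r) (ha' : ‖a'‖ ≤ r) :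
    ‖f a - f a'‖ ≤ 2 * M / r * ‖a - a'‖ := by
  have hs : ∀ w ∈ closedBall (0 : ℂ) r, ball w r ⊆ ball 0 (2 * r) := fun w hw =>
    ball_subset_ball' (by rw [mem_closedBall] at hw; linarith)
  exact (convex_closedBall (0 : ℂ) r).norm_image_sub_le_of_norm_fderiv_le (𝕜 := ℂ)
    (fun w hw => hd.differentiableAt (isOpen_ball.mem_nhds (hs w hw (mem_ball_self hr))))
    (fun w hw => H.fd_le hr (hd.mono (hs w hw)) fun v hv => hM v (hs w hw hv))
    (mem_closedBall_zero_iff.2 ha') (mem_closedBall_zero_iff.2 ha)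

theorem norm_deriv_le {f : ℂ → W} {z : ℂ} {r M : ℝ} (hr : 0 < r)
    (hd : DifferentiableOn ℂ f (ball z r)) (hM : ∀ a ∈ ball z r, ‖f a‖ ≤ M) :
    ‖deriv f z‖ ≤ 2 * M / r := by
  rw [norm_deriv_eq_norm_fderiv]; exact H.fd_le hr hd hM

/-- closeness in the renormalised parameter -/
theorem step_val {f f' : ℂ → W} {c M δ ε X X' : ℝ} (hX : 10 ≤ X) (hXX : X ≤ X') (hc' : c ≤ 1 / 4)
    (hd : DifferentiableOn ℂ f (ball 0 (1 / X ^ 2))) (hM : ∀ a ∈ ball (0 : ℂ) (1 / X ^ 2), ‖f a‖ ≤ M)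
    (hdr : ∀ a : ℂ, ‖a‖ ≤ c / X' ^ 2 → ∃ τ : ℂ, ‖τ‖ ≤ 2 * c / X ^ 2 ∧ ‖hat X τ - hat X' a‖ ≤ δ ∧
      ‖f' a - f τ‖ ≤ ε) {w : ℂ} (hw : ‖w‖ < c / (2 * X' ^ 2)) :
    ‖f' (hi X' w) - f (hi X w)‖ ≤ ε + 8 * M * X ^ 2 * δ := by
  have hX' : 10 ≤ X' := hX.trans hXX
  have p := sq_pos hX
  have p' := sq_pos hX'
  have hsq : X ^ 2 ≤ X' ^ 2 := by gcongr
  have hc : 0 < c := by
    have := (norm_nonneg w).trans_lt hw
    rwa [div_pos_iff_of_pos_right (by positivity)] at this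
  have e1 : c / X' ^ 2 = 2 * (c / (2 * X' ^ 2)) := by field_simp
  have w1 : ‖w‖ < 1 / (2 * X' ^ 2) := hw.trans_le (by gcongr; linarith)
  have w2 : ‖w‖ < 1 / (2 * X ^ 2) := w1.trans_le (by gcongr)
  obtain ⟨τ, t1, t2, t3⟩ := hdr (hi X' w) ((norm_hi hX' w1).trans (by linarith))
  rw [hat_hi hX' w1] at t2
  have t4 : ‖τ‖ ≤ 1 / (2 * X ^ 2) := t1.trans (by
    rw [div_le_div_iff₀ p (by positivity)]; nlinarith)
  have t5 : ‖hi X w‖ ≤ 1 / (2 * X ^ 2) := by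
    refine (norm_hi hX w2).trans ?_
    have : c / X' ^ 2 ≤ 1 / (2 * X ^ 2) := by
      rw [div_le_div_iff₀ p' (by positivity)]; nlinarith
    linarith
  have e2 : 2 * (1 / (2 * X ^ 2)) = 1 / X ^ 2 := by field_simp
  have t6 := lip_small (r := 1 / (2 * X ^ 2)) (by positivity) (e2 ▸ hd) (e2 ▸ hM) t4 t5
  have t7 := sub_hi hX (t4.trans (by rw [← e2]; linarith [norm_nonneg τ])) w2
  have hM0 : 0 ≤ M := (norm_nonneg _).trans (hM 0 (mem_ball_self (by positivity)))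
  have t8 : 2 * M / (1 / (2 * X ^ 2)) * ‖τ - hi X w‖ ≤ 8 * M * X ^ 2 * δ := by
    calc _ ≤ 2 * M / (1 / (2 * X ^ 2)) * (2 * δ) := by gcongr; linarith
      _ = _ := by field_simp; ring
  have := norm_sub_le_norm_sub_add_norm_sub (f' (hi X' w)) (f τ) (f (hi X w))
  linarith

theorem deriv_hi {f : ℂ → W} {X : ℝ} (hX : 10 ≤ X) (hd : DifferentiableOn ℂ f (ball 0 (1 / X ^ 2))) :
    HasDerivAt (fun w => f (hi X w)) (deriv f 0) 0 := by
  have h1 : HasDerivAt f (deriv f 0) (hi X 0) := by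
    rw [hi_zero hX]
    exact (hd.differentiableAt (ball_mem_nhds _ (by have := sq_pos hX; positivity))).hasDerivAt
  exact (h1.scomp 0 (hasDerivAt_hi hX)).congr_deriv (one_smul _ _)

theorem diff_hi {f : ℂ → W} {X : ℝ} (hX : 10 ≤ X) (hd : DifferentiableOn ℂ f (ball 0 (1 / X ^ 2))) :
    DifferentiableOn ℂ (fun w => f (hi X w)) (ball 0 (1 / (2 * X ^ 2))) :=
  hd.comp (hi_diff hX) fun _ hw => mem_ball_zero_iff.2 (hi_lt hX (mem_ball_zero_iff.1 hw))

/-- the increment of the derivative at `a = 0` -/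
theorem step_le {f f' : ℂ → W} {c M δ ε X X' : ℝ} (hX : 10 ≤ X) (hXX : X ≤ X') (hc : 0 < c)
    (hc' : c ≤ 1 / 4) (hd : DifferentiableOn ℂ f (ball 0 (1 / X ^ 2)))
    (hd' : DifferentiableOn ℂ f' (ball 0 (1 / X' ^ 2)))
    (hM : ∀ a ∈ ball (0 : ℂ) (1 / X ^ 2), ‖f a‖ ≤ M)
    (hdr : ∀ a : ℂ, ‖a‖ ≤ c / X' ^ 2 → ∃ τ : ℂ, ‖τ‖ ≤ 2 * c / X ^ 2 ∧ ‖hat X τ - hat X' a‖ ≤ δ ∧
      ‖f' a - f τ‖ ≤ ε) :
    ‖deriv f' 0 - deriv f 0‖ ≤ 4 * X' ^ 2 / c * (ε + 8 * M * X ^ 2 * δ) := by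
  have hX' : 10 ≤ X' := hX.trans hXX
  have p := sq_pos hX
  have p' := sq_pos hX'
  have s1 : c / (2 * X' ^ 2) ≤ 1 / (2 * X' ^ 2) := by gcongr; linarith
  have s2 : 1 / (2 * X' ^ 2) ≤ 1 / (2 * X ^ 2) := by gcongr
  have h1 := norm_deriv_le (f := fun w => f' (hi X' w) - f (hi X w)) (z := 0)
    (r := c / (2 * X' ^ 2)) (by positivity)
    (((diff_hi hX' hd').mono (ball_subset_ball s1)).sub
      ((diff_hi hX hd).mono (ball_subset_ball (s1.trans s2))))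
    fun w hw => step_val hX hXX hc' hd hM hdr (mem_ball_zero_iff.1 hw)
  rw [((deriv_hi hX' hd').fun_sub (deriv_hi hX hd)).deriv] at h1
  refine h1.trans_eq ?_
  field_simp; ring

/-- summation of dyadic increments -/
theorem dyadic {V : Type*} [NormedAddCommGroup V] {g : ℝ → V} {X1 C : ℝ} (h1 : 0 < X1) (hC : 0 ≤ C)
    (h : ∀ X X', X1 ≤ X → X ≤ X' → X' ≤ 2 * X → ‖g X' - g X‖ ≤ C / X) {X X' : ℝ} (hX : X1 ≤ X)
    (hXX : X ≤ X') : ‖g X' - g X‖ ≤ 2 * C / X := by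
  have key : ∀ n : ℕ, ∀ X, X1 ≤ X → X ≤ X' → X' ≤ 2 ^ n * X → ‖g X' - g X‖ ≤ 2 * C / X := by
    intro n
    induction n with
    | zero =>
      intro X a b c
      have : X' = X := le_antisymm (by simpa using c) b
      have hp : 0 < X := h1.trans_le a
      rw [this, sub_self, norm_zero]; positivity
    | succ n ih =>
      intro X a b c
      have hp : 0 < X := h1.trans_le a
      have e : 2 * C / X = C / X + C / X := by ring
      have hq : 0 ≤ C / X := by positivity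
      rcases le_total X' (2 * X) with d | d
      · linarith [h X X' a b d]
      · have k1 := ih (2 * X) (by linarith) d (by rw [pow_succ] at c; linarith)
        have k2 := h X (2 * X) a (by linarith) le_rfl
        have k3 := norm_sub_le_norm_sub_add_norm_sub (g X') (g (2 * X)) (g X)
        have e2 : 2 * C / (2 * X) = C / X := by field_simp
        linarith
  have hp : 0 < X := h1.trans_le hX
  obtain ⟨n, hn⟩ := pow_unbounded_of_one_lt (X' / X) (by norm_num : (1 : ℝ) < 2)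
  exact key n X hX hXX (by rw [div_lt_iff₀ hp] at hn; exact hn.le)

end Crest.Agent.N250.El

end
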